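import Mathlib

/-!
Covering numbers of a pair of convex bodies built from columns of signs.
-/

namespace Vale.Agent.P126

open Finset Metric Pointwise

variable {n : ℕ} {V : Type*} [Fintype V]

/-- The body spanned by the columns and their negatives, thickened by a small cube. -/
def body (g : V → Fin n → ℝ) (δ : ℝ) : Set (Fin n → ℝ) :=
  convexHull ℝ (Set.range g ∪ -Set.range g) + closedBall 0 δ

lemma body_props (g : V → Fin n → ℝ) {δ : ℝ} (hδ : 0 < δ) [Nonempty V] :
    IsCompact (body g δ) ∧ Convex ℝ (body g δ) ∧ (interior (body g δ)).Nonempty ∧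
      -body g δ = body g δ := by
  have hfin : (Set.range g ∪ -Set.range g).Finite :=
    (Set.finite_range g).union (Set.finite_range g).neg
  refine ⟨(hfin.isCompact_convexHull ℝ).add (isCompact_closedBall _ _),
    (convex_convexHull _ _).add (convex_closedBall _ _), ?_, ?_⟩
  · obtain ⟨v⟩ := ‹Nonempty V›
    have hv : g v ∈ convexHull ℝ (Set.range g ∪ -Set.range g) :=
      subset_convexHull _ _ (Or.inl ⟨v, rfl⟩)
    refine ⟨g v, mem_interior.2 ⟨ball (g v) δ, fun z hz => ?_, isOpen_ball, mem_ball_self hδ⟩⟩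
    refine ⟨g v, hv, z - g v, ?_, add_sub_cancel _ _⟩
    rw [mem_closedBall_zero_iff, ← dist_eq_norm]
    exact (mem_ball.1 hz).le
  · rw [body, neg_add, ← convexHull_neg, neg_closedBall, neg_zero, Set.union_neg, neg_neg,
      Set.union_comm]

omit [Fintype V] in
lemma dot_le_of_mem_body {g : V → Fin n → ℝ} {δ M : ℝ} {z x : Fin n → ℝ}
    (hz : ∀ v, |∑ i, g v i * z i| ≤ M) (hx : x ∈ body g δ) :
    ∑ i, x i * z i ≤ M + δ * ∑ i, |z i| := by
  obtain ⟨p, hp, q, hq, rfl⟩ := hx
  have hp' : p ∈ {p : Fin n → ℝ | ∑ i, p i * z i ≤ M} := by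
    refine convexHull_min ?_ (convex_halfSpace_le ?_ M) hp
    · rintro _ (⟨v, rfl⟩ | ⟨v, hv⟩)
      · exact (abs_le.1 (hz v)).2
      · show ∑ i, _ * z i ≤ M
        rw [show ∑ i, (_ : Fin n → ℝ) i * z i = -∑ i, g v i * z i by
          rw [← sum_neg_distrib]
          exact sum_congr rfl fun i _ => by rw [← neg_mul, ← Pi.neg_apply, hv]; simp]
        linarith [(abs_le.1 (hz v)).1]
    · refine ⟨fun p q => ?_, fun c p => ?_⟩
      · simp [add_mul, sum_add_distrib]
      · simp [mul_assoc, mul_sum]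
  have hq' : ∑ i, q i * z i ≤ δ * ∑ i, |z i| := by
    rw [mul_sum]
    refine sum_le_sum fun i _ => ?_
    refine (le_abs_self _).trans ?_
    rw [abs_mul]
    refine mul_le_mul_of_nonneg_right ?_ (abs_nonneg _)
    have := norm_le_pi_norm q i
    rw [Real.norm_eq_abs] at this
    exact this.trans (mem_closedBall_zero_iff.1 hq)
  simp only [Set.mem_ofPred_eq] at hp'
  simp only [Pi.add_apply, add_mul, sum_add_distrib]
  linarith

/-- The polar of the cube of radius `ρ` lies in a multiple of the cross-polytope. -/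
lemma sum_abs_of_mem_polar {ρ : ℝ} (hρ : 0 ≤ ρ) {y : Fin n → ℝ}
    (hy : ∀ x ∈ closedBall (0 : Fin n → ℝ) ρ, ∑ i, x i * y i ≤ 1) : ρ * ∑ i, |y i| ≤ 1 := by
  refine le_trans (le_of_eq ?_) (hy (fun i => if 0 ≤ y i then ρ else -ρ) ?_)
  · rw [mul_sum]
    refine sum_congr rfl fun i _ => ?_
    split_ifs with h
    · rw [abs_of_nonneg h]
    · rw [abs_of_neg (not_le.1 h)]; ring
  · rw [mem_closedBall_zero_iff, pi_norm_le_iff_of_nonneg hρ]
    intro i
    split_ifs <;> simp [abs_of_nonneg hρ]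

/-- Translates of a cube of radius less than one cover few sign columns each. -/
lemma primal_count (g : V → Fin n → ℝ) {δ ρ : ℝ} (hδ : 0 ≤ δ) (hρ : ρ < 1) {E : ℕ}
    (hagree : ∀ (h : Fin n → Bool) (S : Finset V),
      (∀ x ∈ S, ∀ i, (g x i = 1 → h i = true) ∧ (g x i = -1 → h i = false)) →
      S.card * 2 ^ E ≤ Fintype.card V) [Nonempty V]
    {C : Finset (Fin n → ℝ)} (hC : body g δ ⊆ ⋃ c ∈ C, c +ᵥ closedBall (0 : Fin n → ℝ) ρ) :
    2 ^ E ≤ C.card := by
  classical
  have hmem : ∀ x : V, ∃ c ∈ C, ∀ i, |g x i - c i| ≤ ρ := by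
    intro x
    have h1 : g x ∈ body g δ :=
      ⟨g x, subset_convexHull _ _ (Or.inl ⟨x, rfl⟩), 0, mem_closedBall_self hδ, add_zero _⟩
    obtain ⟨c, hc, hxc⟩ := Set.mem_iUnion₂.1 (hC h1)
    refine ⟨c, hc, fun i => ?_⟩
    obtain ⟨z, hz, hzc⟩ := hxc
    have h2 := (norm_le_pi_norm z i).trans (mem_closedBall_zero_iff.1 hz)
    rw [Real.norm_eq_abs] at h2
    rwa [← hzc, show (c +ᵥ z) i - c i = z i by simp]
  choose f hfC hf using hmem
  have hfib : ∀ c ∈ C, (univ.filter fun x => f x = c).card * 2 ^ E ≤ Fintype.card V := by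
    intro c _
    refine hagree (fun i => decide (0 < c i)) _ fun x hx i => ⟨fun h => ?_, fun h => ?_⟩
    all_goals
      have h1 := hf x i
      rw [(mem_filter.1 hx).2, h, abs_le] at h1
      simp only [decide_eq_true_eq, decide_eq_false_iff_not, not_lt]
      linarith
  have h1 : Fintype.card V * 2 ^ E ≤ C.card * Fintype.card V := by
    rw [← card_univ, card_eq_sum_card_fiberwise (f := f) (t := C) fun x _ => hfC x, sum_mul]
    refine (sum_le_sum hfib).trans ?_
    rw [sum_const, smul_eq_mul, ← card_univ,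
      card_eq_sum_card_fiberwise (f := f) (t := C) fun x _ => hfC x]
  rw [mul_comm C.card] at h1
  exact Nat.le_of_mul_le_mul_left h1 Fintype.card_pos

/-- A grid of centres with few nonzero entries. -/
noncomputable def centres (n k G : ℕ) : Finset (Fin n → ℝ) := by
  classical
  exact univ.image fun p : Fin (k + 1) → Fin n × Fin (2 * G + 1) => fun i =>
    if h : ∃ j, (p j).1 = i then (((p h.choose).2 : ℕ) - G : ℝ) / G else 0

lemma centres_card (n k G : ℕ) : (centres n k G).card ≤ (n * (2 * G + 1)) ^ (k + 1) := by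
  classical
  refine card_image_le.trans ?_
  simp

/-- A vector of small support and small entries has a grid centre near it. -/
lemma exists_centre {k G : ℕ} (hG : 0 < G) {H : Finset (Fin n)} (hH : H.Nonempty)
    (hcard : H.card ≤ k + 1) (q : Fin n → ℝ) (hq : ∀ i, i ∉ H → q i = 0)
    (hq1 : ∀ i, |q i| ≤ 1) :
    ∃ c ∈ centres n k G, (∀ i, i ∉ H → c i = 0) ∧ ∀ i, |q i - c i| ≤ 1 / G := by
  classical
  have hGR : (0:ℝ) < G := by exact_mod_cast hG
  have hlo : ∀ i, 0 ≤ (q i + 1) * G := fun i => by nlinarith [(abs_le.1 (hq1 i)).1]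
  have hhi : ∀ i, ⌊(q i + 1) * G⌋₊ < 2 * G + 1 := fun i => Nat.lt_succ_of_le <| by
    refine Nat.floor_le_of_le ?_
    push_cast
    nlinarith [(abs_le.1 (hq1 i)).2]
  have : Nonempty ↥H := hH.to_subtype
  obtain ⟨ψ, hψ⟩ : ∃ ψ : Fin (k + 1) → ↥H, Function.Surjective ψ := by
    obtain ⟨emb⟩ := Function.Embedding.nonempty_of_card_le
      (α := ↥H) (β := Fin (k + 1)) (by simpa using hcard)
    exact ⟨Function.invFun emb, Function.invFun_surjective emb.injective⟩
  refine ⟨_, mem_image.2 ⟨fun j => ((ψ j).1, ⟨⌊(q (ψ j).1 + 1) * G⌋₊, hhi _⟩), mem_univ _, rfl⟩,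
    fun i hi => ?_, fun i => ?_⟩
  · refine dif_neg ?_
    rintro ⟨j, hj⟩
    exact hi (hj ▸ (ψ j).2)
  · by_cases h : ∃ j, (ψ j).1 = i
    · rw [dif_pos h]
      simp only [h.choose_spec]
      have h1 := Nat.floor_le (hlo i)
      have h2 := Nat.lt_floor_add_one ((q i + 1) * G)
      rw [show q i - ((⌊(q i + 1) * G⌋₊ : ℝ) - G) / G
          = ((q i + 1) * G - ⌊(q i + 1) * G⌋₊) / G by field_simp; ring,
        abs_div, abs_of_pos hGR, div_le_div_iff_of_pos_right hGR, abs_le]
      constructor <;> linarith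
    · rw [dif_neg h, hq i fun hi => h ((hψ ⟨i, hi⟩).imp fun j hj => by rw [hj])]
      simp

/-- Unit vectors of the cross-polytope are close, as functionals on the columns, to a centre. -/
lemma dual_approx (g : V → Fin n → ℝ) (i₀ : Fin n) [Nonempty V]
    (hg : ∀ x i, g x i = 1 ∨ g x i = -1 ∨ g x i = 0) (h₀ : ∀ x, g x i₀ = 1)
    (hclash : ∀ x y, (univ.filter fun i => g x i * g y i = -1).card ≤ 2)
    {η : ℝ} (hη : 0 < η) (hη1 : η ≤ 1) {k G : ℕ} (hk : 1 ≤ k * η) (hG : (k + 1 : ℝ) ≤ G * η)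
    {μ : Fin n → ℝ} (hμ : ∑ i, |μ i| ≤ 1) :
    ∃ c ∈ centres n k G, (∀ v, |∑ i, g v i * (μ i - c i)| ≤ 1 / 2 + 2 * η) ∧
      ∑ i, |μ i - c i| ≤ k + 3 := by
  classical
  set H := univ.filter fun i => η < |μ i| with hH
  set ν : Fin n → ℝ := fun i => if i ∈ H then 0 else μ i with hν
  have hHk : H.card ≤ k := by
    by_contra hcon
    have h1 : (H.card : ℝ) * η ≤ 1 := by
      rw [← nsmul_eq_mul, ← sum_const]
      exact (sum_le_sum fun i hi => (mem_filter.1 hi).2.le).trans
        ((sum_le_sum_of_subset_of_nonneg (subset_univ _) fun i _ _ => abs_nonneg _).trans hμ)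
    have h2 : ((k:ℝ) + 1) ≤ H.card := by exact_mod_cast not_le.1 hcon
    nlinarith
  have hνμ : ∀ i, |ν i| ≤ |μ i| := fun i => by
    simp only [hν]; split_ifs <;> simp
  have hνsum : ∑ i, |ν i| ≤ 1 := (sum_le_sum fun i _ => hνμ i).trans hμ
  have hνη : ∀ i, |ν i| ≤ η := fun i => by
    simp only [hν]
    split_ifs with h
    · simpa using hη.le
    · exact le_of_not_gt fun h' => h (mem_filter.2 ⟨mem_univ _, h'⟩)
  set m : V → ℝ := fun v => ∑ i, g v i * ν i with hm
  have hrange : ∀ v w, m v - m w ≤ 1 + 2 * η := by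
    intro v w
    set D := univ.filter fun i => g v i * g w i = -1 with hD
    calc m v - m w = ∑ i, (g v i - g w i) * ν i := by
          simp [hm, sub_mul, sum_sub_distrib]
      _ ≤ ∑ i, (|ν i| + if i ∈ D then |ν i| else 0) := sum_le_sum fun i _ => by
          have h1 := le_abs_self ((g v i - g w i) * ν i)
          rw [abs_mul] at h1
          refine h1.trans ?_
          have h0 := abs_nonneg (ν i)
          rcases hg v i with a | a | a <;> rcases hg w i with b | b | b <;>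
            simp only [hD, mem_filter, mem_univ, true_and, a, b] <;> norm_num <;> linarith
      _ = (∑ i, |ν i|) + ∑ i ∈ D, |ν i| := by
          rw [sum_add_distrib, sum_ite_mem, univ_inter]
      _ ≤ _ := by
          refine add_le_add hνsum ((sum_le_sum fun i _ => hνη i).trans ?_)
          rw [sum_const, nsmul_eq_mul]
          have h2 : (D.card : ℝ) ≤ 2 := Nat.cast_le_ofNat.2 (hclash v w)
          exact mul_le_mul_of_nonneg_right h2 hη.le
  obtain ⟨vmax, -, hmax⟩ := exists_max_image univ m univ_nonempty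
  obtain ⟨vmin, -, hmin⟩ := exists_min_image univ m univ_nonempty
  set c₀ := (m vmax + m vmin) / 2 with hc₀
  have habs : ∀ v, |m v| ≤ ∑ i, |ν i| := fun v => (abs_sum_le_sum_abs _ _).trans
    (sum_le_sum fun i _ => by
      rcases hg v i with h | h | h <;> rw [abs_mul, h] <;> simp)
  set q : Fin n → ℝ := fun i => μ i - ν i + if i = i₀ then c₀ else 0 with hq
  have hsplit : |μ i₀ - ν i₀| + ∑ i, |ν i| ≤ 1 := by
    have h1 : |μ i₀ - ν i₀| + |ν i₀| = |μ i₀| := by
      simp only [hν]; split_ifs <;> simp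
    have h2 : ∑ i, (|μ i| - |ν i|) ≥ |μ i₀| - |ν i₀| :=
      single_le_sum (fun i _ => sub_nonneg.2 (hνμ i)) (mem_univ i₀)
    rw [sum_sub_distrib] at h2
    linarith
  have hc₀le : |c₀| ≤ ∑ i, |ν i| := by
    rw [abs_le]
    have := abs_le.1 (habs vmax)
    have := abs_le.1 (habs vmin)
    constructor <;> linarith
  have hq1 : ∀ i, |q i| ≤ 1 := by
    intro i
    by_cases h : i = i₀
    · subst h
      simp only [hq, if_true]
      exact (abs_add_le _ _).trans (by linarith)
    · simp only [hq, if_neg h, add_zero, hν]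
      split_ifs
      · rw [sub_zero]
        exact le_trans (single_le_sum (fun j _ => abs_nonneg (μ j)) (mem_univ i)) hμ
      · simp
  have hq0 : ∀ i, i ∉ insert i₀ H → q i = 0 := fun i hi => by
    rw [mem_insert, not_or] at hi
    simp [hq, hν, hi.1, hi.2]
  have hGpos : 0 < G := Nat.pos_of_ne_zero fun h => by
    rw [h, Nat.cast_zero, zero_mul] at hG
    linarith [(Nat.cast_nonneg k : (0:ℝ) ≤ k)]
  have hk' : (insert i₀ H).card ≤ k + 1 := (card_insert_le _ _).trans (by omega)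
  obtain ⟨c, hc, hc0, hcq⟩ := exists_centre hGpos (insert_nonempty i₀ H) hk' q hq0 hq1
  have hround : ∑ i, |q i - c i| ≤ η := by
    rw [← sum_subset (subset_univ (insert i₀ H)) fun i _ hi => by simp [hq0 i hi, hc0 i hi]]
    refine (sum_le_sum fun i _ => hcq i).trans ?_
    rw [sum_const, nsmul_eq_mul, ← mul_div_assoc, mul_one, div_le_iff₀ (by exact_mod_cast hGpos)]
    have : ((insert i₀ H).card : ℝ) ≤ k + 1 := by exact_mod_cast hk'
    linarith
  refine ⟨c, hc, fun v => ?_, ?_⟩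
  · have h1 : ∑ i, g v i * (μ i - c i) = (m v - c₀) + ∑ i, g v i * (q i - c i) := by
      have h2 : ∑ i, g v i * (if i = i₀ then c₀ else 0) = c₀ := by simp [h₀]
      simp only [hm, hq, mul_sub, mul_add, sum_sub_distrib, sum_add_distrib, h2]
      ring
    have h3 : |∑ i, g v i * (q i - c i)| ≤ η := (abs_sum_le_sum_abs _ _).trans
      ((sum_le_sum fun i _ => by
        rcases hg v i with h | h | h <;> rw [abs_mul, h] <;> simp).trans hround)
    have h4 : |m v - c₀| ≤ 1 / 2 + η := by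
      rw [abs_le]
      have := hmax v (mem_univ _)
      have := hmin v (mem_univ _)
      have := hrange vmax vmin
      constructor <;> linarith
    rw [h1]
    exact (abs_add_le _ _).trans (by linarith)
  · have h1 : ∀ i, |μ i - c i| ≤ |μ i| + (if i ∈ insert i₀ H then |q i| else 0) + |q i - c i| := by
      intro i
      split_ifs with h
      · have := abs_sub_le (μ i) (q i) (c i)
        have := abs_sub (μ i) (q i)
        linarith
      · simp [hc0 i h, hq0 i h]
    refine (sum_le_sum fun i _ => h1 i).trans ?_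
    rw [sum_add_distrib, sum_add_distrib, sum_ite_mem, univ_inter]
    have h2 : ∑ i ∈ insert i₀ H, |q i| ≤ k + 1 := by
      refine (sum_le_sum fun i _ => hq1 i).trans ?_
      rw [sum_const, nsmul_eq_mul, mul_one]
      exact_mod_cast hk'
    linarith

/-- The polar of the cube is covered by few translates of the scaled polar of the body. -/
lemma dual_cover (g : V → Fin n → ℝ) (i₀ : Fin n) [Nonempty V]
    (hg : ∀ x i, g x i = 1 ∨ g x i = -1 ∨ g x i = 0) (h₀ : ∀ x, g x i₀ = 1)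
    (hclash : ∀ x y, (univ.filter fun i => g x i * g y i = -1).card ≤ 2)
    {a ρ η δ : ℝ} (ha : 0 < a) (hρ : 0 < ρ) (hη : 0 < η) (hη1 : η ≤ 1) (hδ : 0 ≤ δ)
    {k G : ℕ} (hk : 1 ≤ k * η) (hG : (k + 1 : ℝ) ≤ G * η) (hδη : δ * (k + 3) ≤ η)
    (hscale : a * (1 / 2 + 3 * η) ≤ ρ) :
    ∃ C : Finset (Fin n → ℝ), C.Nonempty ∧ C.card ≤ (n * (2 * G + 1)) ^ (k + 1) ∧
      {y : Fin n → ℝ | ∀ x ∈ closedBall (0 : Fin n → ℝ) ρ, ∑ i, x i * y i ≤ 1} ⊆
        ⋃ c ∈ C, c +ᵥ a⁻¹ • {y : Fin n → ℝ | ∀ x ∈ body g δ, ∑ i, x i * y i ≤ 1} := by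
  classical
  refine ⟨(centres n k G).image fun c => ρ⁻¹ • c, ?_, card_image_le.trans (centres_card n k G),
    fun y hy => ?_⟩
  · obtain ⟨c, hc, -⟩ := dual_approx g i₀ hg h₀ hclash hη hη1 hk hG
      (μ := 0) (by simp)
    exact ⟨_, mem_image_of_mem _ hc⟩
  have hμ : ∑ i, |(ρ • y) i| ≤ 1 := by
    simp only [Pi.smul_apply, smul_eq_mul, abs_mul, abs_of_pos hρ, ← mul_sum]
    exact sum_abs_of_mem_polar hρ.le hy
  obtain ⟨c, hc, hg1, hl1⟩ := dual_approx g i₀ hg h₀ hclash hη hη1 hk hG hμ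
  refine Set.mem_iUnion₂.2 ⟨ρ⁻¹ • c, mem_image_of_mem _ hc, y - ρ⁻¹ • c, ?_,
    add_sub_cancel _ _⟩
  rw [Set.mem_inv_smul_set_iff₀ ha.ne']
  intro x hx
  have h1 := dot_le_of_mem_body hg1 hx
  have h2 : ∑ i, x i * (a • (y - ρ⁻¹ • c)) i
      = a / ρ * ∑ i, x i * ((ρ • y) i - c i) := by
    rw [mul_sum]
    refine sum_congr rfl fun i _ => ?_
    simp only [Pi.smul_apply, Pi.sub_apply, smul_eq_mul]
    field_simp
  rw [h2, div_mul_eq_mul_div, div_le_one hρ]
  refine le_trans (mul_le_mul_of_nonneg_left h1 ha.le) (le_trans ?_ hscale)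
  refine mul_le_mul_of_nonneg_left ?_ ha.le
  nlinarith [mul_le_mul_of_nonneg_left hl1 hδ]

end Vale.Agent.P126
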