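import Mathlib

/-!
A symmetric orthogonal sign kernel with unit diagonal, and the pattern lemma: in a large set of
tuples some pair realises any prescribed sign pattern that avoids a few coordinates.
-/

namespace Vale.Agent.P126

open Finset

/-- The letters of the gadget: `4e` bits. -/
abbrev Letter (e : ℕ) : Type := Fin (2 * e) → Bool × Bool

/-- The kernel on one pair of bits. -/
def kerBit (a b : Bool × Bool) : ℝ := if xor (a.1 && b.2) (a.2 && b.1) then -1 else 1

/-- The sign kernel. -/
def ker {e : ℕ} (a b : Letter e) : ℝ := ∏ i, kerBit (a i) (b i)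

lemma kerBit_sum (a a' : Bool × Bool) :
    ∑ b, kerBit a b * kerBit a' b = if a = a' then 4 else 0 := by
  rcases a with ⟨_ | _, _ | _⟩ <;> rcases a' with ⟨_ | _, _ | _⟩ <;>
    simp [kerBit, Fintype.sum_prod_type] <;> norm_num

lemma ker_self {e : ℕ} (a : Letter e) : ker a a = 1 :=
  prod_eq_one fun i _ => by
    rcases a i with ⟨_ | _, _ | _⟩ <;> simp [kerBit]

lemma ker_comm {e : ℕ} (a b : Letter e) : ker a b = ker b a :=
  prod_congr rfl fun i _ => by
    rcases a i with ⟨_ | _, _ | _⟩ <;> rcases b i with ⟨_ | _, _ | _⟩ <;> simp [kerBit]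

lemma ker_eq {e : ℕ} (a b : Letter e) : ker a b = 1 ∨ ker a b = -1 := by
  unfold ker
  induction (univ : Finset (Fin (2 * e))) using Finset.induction with
  | empty => simp
  | insert i s hi ih =>
    rw [prod_insert hi]
    rcases ih with h | h <;> rw [h] <;> unfold kerBit <;> split_ifs <;> norm_num

lemma card_letter (e : ℕ) : Fintype.card (Letter e) = 2 ^ (4 * e) := by
  simp only [Fintype.card_fun, Fintype.card_prod, Fintype.card_bool, Fintype.card_fin]
  rw [show 4 * e = 2 * (2 * e) by ring, pow_mul 2 2]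
  norm_num

lemma ker_sum {e : ℕ} (a a' : Letter e) :
    ∑ b, ker a b * ker a' b = if a = a' then (2:ℝ) ^ (4 * e) else 0 := by
  simp only [ker, ← prod_mul_distrib]
  rw [← Fintype.prod_sum fun i x => kerBit (a i) x * kerBit (a' i) x]
  simp only [kerBit_sum]
  by_cases h : a = a'
  · subst h
    simp only [if_true, prod_const, card_univ, Fintype.card_fin]
    rw [show (4:ℝ) = 2 ^ 2 by norm_num, ← pow_mul]
    congr 1
    ring
  · rw [if_neg h]
    obtain ⟨i, hi⟩ := Function.ne_iff.1 h
    exact prod_eq_zero (mem_univ i) (if_neg hi)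

variable {U : Type*} [Fintype U] [DecidableEq U] {e : ℕ}

/-- The restriction of a tuple to a set of coordinates. -/
def proj (I : Finset U) (x : U → Letter e) : ↥I → Letter e := fun u => x u.1

omit [Fintype U] in
/-- Correlation of a set of tuples on a set of coordinates. -/
lemma corr_le (S : Finset (U → Letter e)) (I : Finset U) {M : ℝ}
    (hM : ∀ a, ((S.filter fun x => proj I x = a).card : ℝ) ≤ M) :
    |∑ x ∈ S, ∑ y ∈ S, ∏ u ∈ I, ker (x u) (y u)| ≤ (2:ℝ) ^ (2 * e * I.card) * (M * S.card) := by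
  classical
  set p : (↥I → Letter e) → ℝ := fun a => ((S.filter fun x => proj I x = a).card : ℝ) with hp
  set K : (↥I → Letter e) → (↥I → Letter e) → ℝ := fun a b => ∏ u, ker (a u) (b u) with hK
  have hp0 : ∀ a, 0 ≤ p a := fun a => Nat.cast_nonneg _
  have hgroup : ∀ f : (↥I → Letter e) → ℝ, ∑ x ∈ S, f (proj I x) = ∑ a, p a * f a := by
    intro f
    rw [← sum_fiberwise S (proj I) fun x => f (proj I x)]
    refine sum_congr rfl fun a _ => ?_
    rw [sum_congr rfl fun x hx => by rw [(mem_filter.1 hx).2], sum_const, nsmul_eq_mul]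
  have hT : ∑ x ∈ S, ∑ y ∈ S, ∏ u ∈ I, ker (x u) (y u) = ∑ a, p a * ∑ b, p b * K a b := by
    rw [← hgroup fun a => ∑ b, p b * K a b]
    refine sum_congr rfl fun x _ => ?_
    rw [← hgroup fun b => K (proj I x) b]
    refine sum_congr rfl fun y _ => ?_
    exact (prod_coe_sort I fun u => ker (x u) (y u)).symm
  have horth : ∀ a a', ∑ b, K a b * K a' b = if a = a' then (2:ℝ) ^ (4 * e * I.card) else 0 := by
    intro a a'
    simp only [hK, ← prod_mul_distrib]
    rw [← Fintype.prod_sum fun u x => ker (a u) x * ker (a' u) x]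
    simp only [ker_sum]
    by_cases h : a = a'
    · subst h
      simp only [if_true, prod_const, card_univ, Fintype.card_coe, ← pow_mul]
    · rw [if_neg h]
      obtain ⟨i, hi⟩ := Function.ne_iff.1 h
      exact prod_eq_zero (mem_univ i) (if_neg hi)
  have hF : ∑ a, (∑ b, p b * K a b) ^ 2 = (2:ℝ) ^ (4 * e * I.card) * ∑ b, p b ^ 2 := by
    simp only [sq, sum_mul_sum]
    rw [sum_comm, mul_sum]
    refine sum_congr rfl fun b _ => ?_
    rw [sum_comm]
    rw [sum_eq_single b]
    · have hsym : ∀ a c, K a c = K c a := fun a c => prod_congr rfl fun u _ => ker_comm _ _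
      have h := horth b b
      rw [if_pos rfl] at h
      rw [← h, sum_mul]
      exact sum_congr rfl fun a _ => by rw [hsym a b]; ring
    · intro c _ hc
      have hsym : ∀ a c, K a c = K c a := fun a c => prod_congr rfl fun u _ => ker_comm _ _
      have h := horth b c
      rw [if_neg (Ne.symm hc)] at h
      calc ∑ a, p b * K a b * (p c * K a c) = (p b * p c) * ∑ a, K b a * K c a := by
            rw [mul_sum]; exact sum_congr rfl fun a _ => by rw [hsym a b, hsym a c]; ring
        _ = 0 := by rw [h, mul_zero]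
    · simp
  have hsq : ∑ b, p b ^ 2 ≤ M * S.card := by
    have h1 : ∑ b, p b = (S.card : ℝ) := by
      rw [← mul_one (S.card : ℝ), ← nsmul_eq_mul, ← sum_const, hgroup fun _ => (1:ℝ)]
      simp
    rw [← h1, mul_sum]
    exact sum_le_sum fun b _ => by rw [sq]; exact mul_le_mul_of_nonneg_right (hM b) (hp0 b)
  rw [hT]
  have hcs := sum_mul_sq_le_sq_mul_sq univ p fun a => ∑ b, p b * K a b
  rw [hF] at hcs
  have hs0 : 0 ≤ ∑ b, p b ^ 2 := sum_nonneg fun b _ => sq_nonneg _
  refine le_trans ?_ (mul_le_mul_of_nonneg_left hsq (by positivity))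
  refine abs_le_of_sq_le_sq (hcs.trans_eq ?_) (mul_nonneg (pow_nonneg zero_le_two _) hs0)
  rw [show 4 * e * I.card = 2 * e * I.card * 2 by ring, pow_mul]
  ring

/-- A set in which every projection is evenly spread realises every pattern. -/
lemma spread_pattern (S : Finset (U → Letter e)) (K : Finset U) (σ : U → ℝ) (hS : S.Nonempty)
    (hσ : ∀ u ∈ K, σ u = 1 ∨ σ u = -1) (he : K.card < e)
    (hspread : ∀ I ⊆ K, I.Nonempty → ∀ a,
      (S.filter fun x => proj I x = a).card * 2 ^ (3 * e * I.card) ≤ S.card) :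
    ∃ x ∈ S, ∃ y ∈ S, ∀ u ∈ K, ker (x u) (y u) = σ u := by
  classical
  by_contra hcon
  push Not at hcon
  have hzero : ∀ x ∈ S, ∀ y ∈ S, ∏ u ∈ K, (1 + σ u * ker (x u) (y u)) = 0 := by
    intro x hx y hy
    obtain ⟨u, hu, hne⟩ := hcon x hx y hy
    refine prod_eq_zero hu ?_
    rcases hσ u hu with h | h <;> rcases ker_eq (x u) (y u) with h' | h' <;>
      simp only [h, h'] at hne ⊢ <;> first | (norm_num; done) | exact absurd rfl hne
  have hexp : ∑ x ∈ S, ∑ y ∈ S, ∏ u ∈ K, (1 + σ u * ker (x u) (y u))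
      = ∑ I ∈ K.powerset, (∏ u ∈ I, σ u) * ∑ x ∈ S, ∑ y ∈ S, ∏ u ∈ I, ker (x u) (y u) := by
    simp only [prod_one_add, prod_mul_distrib, mul_sum]
    rw [sum_comm' (s := S) (t := fun _ => S) (t' := S) (s' := fun _ => S) (by simp)]
    rw [sum_congr rfl fun y _ => sum_comm, sum_comm]
    exact sum_congr rfl fun I _ => sum_comm
  rw [sum_eq_zero fun x hx => sum_eq_zero fun y hy => hzero x hx y hy,
    ← add_sum_erase _ _ (empty_mem_powerset K)] at hexp
  simp only [prod_empty, one_mul, sum_const, nsmul_eq_mul, mul_one] at hexp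
  have hSR : (0:ℝ) < S.card := by exact_mod_cast hS.card_pos
  have hterm : ∀ I ∈ K.powerset.erase ∅,
      |(∏ u ∈ I, σ u) * ∑ x ∈ S, ∑ y ∈ S, ∏ u ∈ I, ker (x u) (y u)|
        ≤ (S.card : ℝ) * S.card / 2 ^ e := by
    intro I hI
    obtain ⟨hne, hIK⟩ := mem_erase.1 hI
    rw [mem_powerset] at hIK
    have hIne : I.Nonempty := nonempty_iff_ne_empty.2 hne
    have h1 : |∏ u ∈ I, σ u| = 1 := by
      rw [abs_prod]
      exact prod_eq_one fun u hu => by rcases hσ u (hIK hu) with h | h <;> simp [h]
    rw [abs_mul, h1, one_mul]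
    refine (corr_le S I (M := (S.card : ℝ) / 2 ^ (3 * e * I.card)) fun a => ?_).trans ?_
    · rw [le_div_iff₀ (by positivity)]
      exact_mod_cast hspread I hIK hIne a
    · rw [div_mul_eq_mul_div, ← mul_div_assoc, div_le_div_iff₀ (by positivity) (by positivity)]
      have h2 : (2:ℝ) ^ (2 * e * I.card) * 2 ^ e ≤ 2 ^ (3 * e * I.card) := by
        rw [← pow_add]
        refine pow_le_pow_right₀ one_le_two ?_
        have := hIne.card_pos
        nlinarith
      calc _ = (2:ℝ) ^ (2 * e * I.card) * 2 ^ e * ((S.card : ℝ) * S.card) := by ring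
        _ ≤ 2 ^ (3 * e * I.card) * ((S.card : ℝ) * S.card) := by gcongr
        _ = _ := by ring
  have hbound := (abs_sum_le_sum_abs _ _).trans (sum_le_sum hterm)
  rw [sum_const, nsmul_eq_mul, card_erase_of_mem (empty_mem_powerset K), card_powerset] at hbound
  have hsum : ∑ I ∈ K.powerset.erase ∅,
      (∏ u ∈ I, σ u) * ∑ x ∈ S, ∑ y ∈ S, ∏ u ∈ I, ker (x u) (y u) = -((S.card : ℝ) * S.card) := by
    linarith
  rw [hsum, abs_neg, abs_of_nonneg (by positivity)] at hbound
  have hlt : ((2 ^ K.card - 1 : ℕ) : ℝ) < 2 ^ e := by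
    have : 2 ^ K.card ≤ 2 ^ e := Nat.pow_le_pow_right (by norm_num) he.le
    exact_mod_cast (show 2 ^ K.card - 1 < 2 ^ e by have := Nat.one_le_two_pow (n := K.card); omega)
  rw [← mul_div_assoc, le_div_iff₀ (by positivity)] at hbound
  have := mul_lt_mul_of_pos_right hlt (mul_pos hSR hSR)
  linarith

/-- Some pair in a large set realises a pattern, off a small set of coordinates. -/
theorem large_pattern (S : Finset (U → Letter e)) {D : ℕ}
    (hS : 2 ^ (4 * e * Fintype.card U) < S.card * 2 ^ (e * D)) :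
    ∃ R : Finset U, R.card < D ∧ ∀ A Z : Finset U, Disjoint A Z → Disjoint A R →
      (A ∪ Z).card < e →
      ∃ x ∈ S, ∃ y ∈ S, (∀ u ∈ A, ker (x u) (y u) = -1) ∧ ∀ u ∈ Z, ker (x u) (y u) = 1 := by
  classical
  set wt : Finset U × (U → Letter e) → ℕ := fun z =>
    (S.filter fun x => ∀ u ∈ z.1, x u = z.2 u).card * 2 ^ (3 * e * z.1.card) with hwt
  have : Nonempty (U → Letter e) := ⟨fun _ _ => (false, false)⟩
  obtain ⟨⟨R, a⟩, -, hmax⟩ := exists_max_image (univ : Finset (Finset U × (U → Letter e))) wt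
    univ_nonempty
  have hbase : S.card ≤ (S.filter fun x => ∀ u ∈ R, x u = a u).card * 2 ^ (3 * e * R.card) := by
    refine le_trans (le_of_eq ?_) (hmax (∅, a) (mem_univ _))
    simp [hwt]
  set S' := S.filter fun x => ∀ u ∈ R, x u = a u with hS'
  have hS0 : 0 < S.card := Nat.pos_of_ne_zero fun h => by simp [h] at hS
  have hS'0 : S'.Nonempty := card_pos.1 (Nat.pos_of_mul_pos_right (lt_of_lt_of_le hS0 hbase))
  have hR : R.card < D := by
    by_contra hD
    push Not at hD
    have hfib : S'.card ≤ 2 ^ (4 * e * (Fintype.card U - R.card)) := by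
      calc S'.card ≤ (univ : Finset (↥(Rᶜ) → Letter e)).card := by
            refine card_le_card_of_injOn (fun x u => x u.1) (fun x _ => by simp) ?_
            intro x hx y hy h
            funext u
            by_cases hu : u ∈ R
            · rw [(mem_filter.1 hx).2 u hu, (mem_filter.1 hy).2 u hu]
            · exact congrFun h ⟨u, mem_compl.2 hu⟩
        _ = _ := by
            rw [card_univ, Fintype.card_fun, card_letter, Fintype.card_coe, card_compl, ← pow_mul]
    have hRn := card_le_univ R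
    have h2 := Nat.mul_le_mul_right (2 ^ (e * D)) (hbase.trans (Nat.mul_le_mul_right _ hfib))
    have h3 := lt_of_lt_of_le hS h2
    rw [← pow_add, ← pow_add] at h3
    have h4 := (Nat.pow_lt_pow_iff_right (by norm_num)).1 h3
    obtain ⟨c, hc⟩ := Nat.exists_eq_add_of_le hRn
    rw [hc, Nat.add_sub_cancel_left] at h4
    have : e * D ≤ e * R.card := Nat.mul_le_mul_left e hD
    nlinarith
  refine ⟨R, hR, fun A Z hAZ hAR hcard => ?_⟩
  set K := (A ∪ Z) \ R with hK
  obtain ⟨x, hx, y, hy, hxy⟩ := spread_pattern S' K (fun u => if u ∈ A then -1 else 1) hS'0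
    (fun u _ => by split_ifs <;> simp) (lt_of_le_of_lt (card_le_card sdiff_subset) hcard) (by
      intro I hI _ b
      have hIR : Disjoint R I :=
        disjoint_left.2 fun u hu hu' => (mem_sdiff.1 (hI hu')).2 hu
      have h := hmax (R ∪ I, fun u => if h : u ∈ I then b ⟨u, h⟩ else a u) (mem_univ _)
      simp only [hwt] at h
      rw [card_union_of_disjoint hIR, mul_add (3 * e), pow_add, ← mul_assoc,
        mul_right_comm] at h
      refine le_trans (le_of_eq ?_) (Nat.le_of_mul_le_mul_right h (by positivity))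
      congr 2
      ext x
      simp only [hS', mem_filter, mem_union, and_assoc, and_congr_right_iff]
      refine fun _ => ⟨fun ⟨h1, h2⟩ u hu => ?_, fun h1 => ⟨fun u hu => ?_, funext fun u => ?_⟩⟩
      · by_cases hI' : u ∈ I
        · rw [dif_pos hI']; exact congrFun h2 ⟨u, hI'⟩
        · rw [dif_neg hI']; exact h1 u (hu.resolve_right hI')
      · have := h1 u (Or.inl hu)
        rwa [dif_neg (disjoint_left.1 hIR hu)] at this
      · have := h1 u.1 (Or.inr u.2)
        rw [dif_pos u.2] at this
        exact this)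
  refine ⟨x, (mem_filter.1 hx).1, y, (mem_filter.1 hy).1, fun u hu => ?_, fun u hu => ?_⟩
  · have := hxy u (mem_sdiff.2 ⟨mem_union_left _ hu, disjoint_left.1 hAR hu⟩)
    rwa [if_pos hu] at this
  · by_cases huR : u ∈ R
    · rw [(mem_filter.1 hx).2 u huR, (mem_filter.1 hy).2 u huR]; exact ker_self _
    · have := hxy u (mem_sdiff.2 ⟨mem_union_right _ hu, huR⟩)
      rwa [if_neg (disjoint_right.1 hAZ hu)] at this

end Vale.Agent.P126
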