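import Vale.Agent.P126.Tournament
import Vale.Agent.P126.Gadget

/-!
A partial sign matrix: every column is in conflict with every other one in at most two rows, and
every total sign vector agrees with few columns.
-/

namespace Vale.Agent.P126

open Finset

/-- A pair of a level and a vertex with an out-neighbour. -/
abbrev Term {s : ℕ} (N : Fin s → Fin s → Bool) : Type :=
  {z : Fin s × Fin s // ∃ w, N z.2 w = true}

section
variable {s : ℕ} {N : Fin s → Fin s → Bool}

/-- A chosen out-neighbour. -/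
noncomputable def Term.out (T : Term N) : Fin s :=
  Fin.find (fun w => N T.1.2 w = true) T.2

lemma Term.out_spec (T : Term N) : N T.1.2 T.out = true := Fin.find_spec (p := fun w => N T.1.2 w = true) T.2

/-- The out-neighbours of the vertex on the level of the term. -/
def Term.A (T : Term N) : Finset (Fin s × Fin s) :=
  (univ.filter fun u => N T.1.2 u = true).image fun u => (T.1.1, u)

/-- The vertex on all levels, and a chosen out-neighbour on the lower levels. -/
noncomputable def Term.Z (T : Term N) : Finset (Fin s × Fin s) :=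
  (univ.image fun j => (j, T.1.2)) ∪ (Iio T.1.1).image fun j => (j, T.out)

lemma Term.mem_A {T : Term N} {z : Fin s × Fin s} :
    z ∈ T.A ↔ z.1 = T.1.1 ∧ N T.1.2 z.2 = true := by
  obtain ⟨j, u⟩ := z
  simp only [Term.A, mem_image, mem_filter, mem_univ, true_and, Prod.mk.injEq]
  exact ⟨fun ⟨u', h, h1, h2⟩ => ⟨h1.symm, h2 ▸ h⟩, fun ⟨h1, h⟩ => ⟨u, h, h1.symm, rfl⟩⟩

lemma Term.mem_Z {T : Term N} {z : Fin s × Fin s} :
    z ∈ T.Z ↔ z.2 = T.1.2 ∨ z.1 < T.1.1 ∧ z.2 = T.out := by
  obtain ⟨j, u⟩ := z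
  simp [Term.Z, eq_comm]

lemma Term.disjoint_A_Z (hirr : ∀ x, N x x = false) (T : Term N) : Disjoint T.A T.Z := by
  refine disjoint_left.2 fun z hA hZ => ?_
  rw [Term.mem_A] at hA
  rcases Term.mem_Z.1 hZ with h | ⟨h, -⟩
  · rw [h, hirr] at hA; exact Bool.false_ne_true hA.2
  · exact absurd hA.1 h.ne

lemma Term.card_le (T : Term N) : (T.A ∪ T.Z).card ≤ 3 * s := by
  refine (card_union_le _ _).trans ?_
  have h1 : T.A.card ≤ s := card_image_le.trans ((card_le_univ _).trans (Fintype.card_fin s).le)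
  have h2 : T.Z.card ≤ s + s := by
    refine (card_union_le _ _).trans (Nat.add_le_add ?_ ?_)
    · exact card_image_le.trans (by simp)
    · exact card_image_le.trans ((card_le_univ _).trans (Fintype.card_fin s).le)
  omega

lemma Term.conflict (htot : ∀ x u, x ≠ u → N x u = true ∨ N u x = true) {T T' : Term N}
    (h : T ≠ T') : (∃ z, z ∈ T.A ∧ z ∈ T'.Z) ∨ ∃ z, z ∈ T'.A ∧ z ∈ T.Z := by
  by_cases hx : T.1.2 = T'.1.2
  · have hi : T.1.1 ≠ T'.1.1 := fun hi => h (Subtype.ext (Prod.ext hi hx))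
    rcases lt_or_gt_of_ne hi with hlt | hlt
    · exact Or.inl ⟨(T.1.1, T'.out), Term.mem_A.2 ⟨rfl, hx ▸ T'.out_spec⟩,
        Term.mem_Z.2 (Or.inr ⟨hlt, rfl⟩)⟩
    · exact Or.inr ⟨(T'.1.1, T.out), Term.mem_A.2 ⟨rfl, hx.symm ▸ T.out_spec⟩,
        Term.mem_Z.2 (Or.inr ⟨hlt, rfl⟩)⟩
  · rcases htot _ _ hx with h1 | h1
    · exact Or.inl ⟨(T.1.1, T'.1.2), Term.mem_A.2 ⟨rfl, h1⟩, Term.mem_Z.2 (Or.inl rfl)⟩
    · exact Or.inr ⟨(T'.1.1, T.1.2), Term.mem_A.2 ⟨rfl, h1⟩, Term.mem_Z.2 (Or.inl rfl)⟩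

lemma Term.escape {t : ℕ} (htot : ∀ x u, x ≠ u → N x u = true ∨ N u x = true)
    (hdom : ∀ R : Finset (Fin s), R.card ≤ t → ∃ x ∉ R, ∀ u ∈ R, N x u = false)
    {R : Finset (Fin s × Fin s)} (hR : R.card < t * s) : ∃ T : Term N, Disjoint T.A R := by
  classical
  obtain ⟨i, hi⟩ : ∃ i, (R.filter fun z => z.1 = i).card < t := by
    by_contra hcon
    push Not at hcon
    have h1 : t * s ≤ R.card := by
      rw [card_eq_sum_card_fiberwise (f := Prod.fst) (t := (univ : Finset (Fin s)))
        fun _ _ => mem_univ _]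
      calc t * s = ∑ _i : Fin s, t := by simp [mul_comm]
        _ ≤ _ := sum_le_sum fun i _ => hcon i
    omega
  set sinks := (univ : Finset (Fin s)).filter fun x => ∀ w, N x w = false with hsinks
  have hs1 : sinks.card ≤ 1 := by
    refine card_le_one.2 fun x hx y hy => by_contra fun hxy => ?_
    rcases htot x y hxy with h | h
    · simp [(mem_filter.1 hx).2 y] at h
    · simp [(mem_filter.1 hy).2 x] at h
  obtain ⟨x, hxR, hx⟩ := hdom (((R.filter fun z => z.1 = i).image Prod.snd) ∪ sinks) (by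
    refine (card_union_le _ _).trans ?_
    have := (card_image_le : ((R.filter fun z => z.1 = i).image Prod.snd).card ≤ _)
    omega)
  have hout : ∃ w, N x w = true := by
    by_contra hcon
    exact hxR (mem_union_right _ (mem_filter.2 ⟨mem_univ _, fun w => by
      simpa using fun h => hcon ⟨w, h⟩⟩))
  refine ⟨⟨(i, x), hout⟩, disjoint_left.2 fun z hz hzR => ?_⟩
  obtain ⟨h1, h2⟩ := Term.mem_A.1 hz
  have h3 := hx z.2 (mem_union_left _ (mem_image.2 ⟨z, mem_filter.2 ⟨hzR, h1⟩, rfl⟩))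
  simp only at h2
  simp [h3] at h2

variable {e : ℕ}

/-- A class: a term together with letters on its support. -/
abbrev Cls (N : Fin s → Fin s → Bool) (e : ℕ) : Type :=
  Σ T : Term N, (↥(T.A ∪ T.Z) → Letter e)

/-- The pattern of a term against given letters. -/
def Pattern (x : Fin s × Fin s → Letter e) (p : Cls N e) : Prop :=
  ∀ u : ↥(p.1.A ∪ p.1.Z), ker (p.2 u) (x u.1) = if u.1 ∈ p.1.A then -1 else 1

open Classical in
/-- The sign of a column in the row of a class, with an extra constant row. -/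
noncomputable def sgn (x : Fin s × Fin s → Letter e) : Option (Cls N e) → ℝ
  | none => 1
  | some p => if ∀ u : ↥(p.1.A ∪ p.1.Z), x u.1 = p.2 u then 1 else
      if Pattern x p then -1 else 0

lemma sgn_cases (x : Fin s × Fin s → Letter e) (p : Option (Cls N e)) :
    sgn x p = 1 ∨ sgn x p = -1 ∨ sgn x p = 0 := by
  rcases p with _ | p <;> simp only [sgn]
  · simp
  · split_ifs <;> simp

lemma sgn_pos {x : Fin s × Fin s → Letter e} {p : Cls N e} (h : sgn x (some p) = 1) :
    ∀ u : ↥(p.1.A ∪ p.1.Z), x u.1 = p.2 u := by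
  by_contra hcon
  simp only [sgn, if_neg hcon] at h
  split_ifs at h <;> norm_num at h

lemma sgn_neg {x : Fin s × Fin s → Letter e} {p : Cls N e} (h : sgn x (some p) = -1) :
    Pattern x p := by
  by_contra hcon
  simp only [sgn, if_neg hcon] at h
  split_ifs at h <;> norm_num at h

lemma not_conflict {x y : Fin s × Fin s → Letter e} (hirr : ∀ x, N x x = false) {p q : Cls N e}
    (h1 : sgn x (some p) = 1) (h2 : sgn y (some p) = -1) (h3 : sgn x (some q) = 1)
    (h4 : sgn y (some q) = -1) {z : Fin s × Fin s} (hz : z ∈ p.1.A) (hz' : z ∈ q.1.Z) : False := by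
  have e1 := sgn_neg h2 ⟨z, mem_union_left _ hz⟩
  have e2 := sgn_neg h4 ⟨z, mem_union_right _ hz'⟩
  rw [← sgn_pos h1 ⟨z, mem_union_left _ hz⟩, if_pos hz] at e1
  rw [← sgn_pos h3 ⟨z, mem_union_right _ hz'⟩,
    if_neg (disjoint_right.1 (Term.disjoint_A_Z hirr q.1) hz')] at e2
  rw [e1] at e2
  norm_num at e2

lemma clash {x y : Fin s × Fin s → Letter e} (hirr : ∀ x, N x x = false)
    (htot : ∀ x u, x ≠ u → N x u = true ∨ N u x = true) {p q : Cls N e}
    (h1 : sgn x (some p) = 1) (h2 : sgn y (some p) = -1) (h3 : sgn x (some q) = 1)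
    (h4 : sgn y (some q) = -1) : p = q := by
  have hTT : p.1 = q.1 := by
    by_contra hne
    rcases Term.conflict htot hne with ⟨z, hz, hz'⟩ | ⟨z, hz, hz'⟩
    · exact not_conflict hirr h1 h2 h3 h4 hz hz'
    · exact not_conflict hirr h3 h4 h1 h2 hz hz'
  have hc := sgn_pos h1
  have hc' := sgn_pos h3
  obtain ⟨T, c⟩ := p
  obtain ⟨T', c'⟩ := q
  subst hTT
  exact congrArg (Sigma.mk T) (funext fun u => (hc u).symm.trans (hc' u))

lemma agree {t : ℕ} (hirr : ∀ x, N x x = false)
    (htot : ∀ x u, x ≠ u → N x u = true ∨ N u x = true)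
    (hdom : ∀ R : Finset (Fin s), R.card ≤ t → ∃ x ∉ R, ∀ u ∈ R, N x u = false)
    (he : 3 * s < e) (h : Option (Cls N e) → Bool) (S : Finset (Fin s × Fin s → Letter e))
    (hS : ∀ x ∈ S, ∀ i, (sgn x i = 1 → h i = true) ∧ (sgn x i = -1 → h i = false)) :
    S.card * 2 ^ (e * (t * s)) ≤ Fintype.card (Fin s × Fin s → Letter e) := by
  by_contra hcon
  have hlt : 2 ^ (4 * e * Fintype.card (Fin s × Fin s)) < S.card * 2 ^ (e * (t * s)) := by
    refine lt_of_eq_of_lt ?_ (not_le.1 hcon)
    rw [pow_mul 2, ← card_letter, ← Fintype.card_fun]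
  obtain ⟨R, hR, hpatt⟩ := large_pattern S hlt
  obtain ⟨T, hT⟩ := Term.escape htot hdom hR
  obtain ⟨x, hx, y, hy, hA, hZ⟩ := hpatt T.A T.Z (Term.disjoint_A_Z hirr T) hT
    (lt_of_le_of_lt T.card_le he)
  let p : Cls N e := ⟨T, fun u => x u.1⟩
  have h1 : sgn x (some p) = 1 := by
    show (if ∀ u : ↥(T.A ∪ T.Z), x u.1 = x u.1 then (1:ℝ) else _) = 1
    exact if_pos fun _ => rfl
  have hpat : Pattern y p := fun u => by
    by_cases hu : u.1 ∈ T.A
    · rw [if_pos hu]; exact hA _ hu
    · rw [if_neg hu]; exact hZ _ ((mem_union.1 u.2).resolve_left hu)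
  have h2 : sgn y (some p) = -1 := by
    have hne : ¬∀ u : ↥(T.A ∪ T.Z), y u.1 = x u.1 := fun hxy => by
      have hout : (T.1.1, T.out) ∈ T.A := Term.mem_A.2 ⟨rfl, T.out_spec⟩
      have := hA _ hout
      rw [hxy ⟨_, mem_union_left _ hout⟩, ker_self] at this
      norm_num at this
    simp only [sgn]
    rw [if_neg hne, if_pos hpat]
  have e1 := (hS x hx _).1 h1
  have e2 := (hS y hy _).2 h2
  simp [e1] at e2

lemma card_cls : Fintype.card (Cls N e) ≤ 2 ^ (2 * s) * 2 ^ (12 * e * s) := by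
  rw [Fintype.card_sigma]
  simp only [Fintype.card_fun (α := ↥(_ : Finset (Fin s × Fin s))), card_letter, Fintype.card_coe]
  calc ∑ T : Term N, (2 ^ (4 * e)) ^ (T.A ∪ T.Z).card
      ≤ ∑ _T : Term N, 2 ^ (12 * e * s) := sum_le_sum fun T _ => by
        rw [← pow_mul]
        exact Nat.pow_le_pow_right (by norm_num) (by nlinarith [T.card_le])
    _ ≤ _ := by
        rw [sum_const, smul_eq_mul, card_univ]
        refine Nat.mul_le_mul_right _ ((Fintype.card_subtype_le _).trans ?_)
        rw [Fintype.card_prod, Fintype.card_fin, two_mul, pow_add]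
        exact Nat.mul_le_mul s.lt_two_pow_self.le s.lt_two_pow_self.le

lemma clash_count (hirr : ∀ x, N x x = false)
    (htot : ∀ x u, x ≠ u → N x u = true ∨ N u x = true) {n : ℕ} (φ : Fin n ≃ Option (Cls N e))
    (x y : Fin s × Fin s → Letter e) :
    (univ.filter fun i => sgn x (φ i) * sgn y (φ i) = -1).card ≤ 2 := by
  have hone : ∀ x y, (univ.filter fun i => sgn x (φ i) = 1 ∧ sgn y (φ i) = -1).card ≤ 1 := by
    intro x y
    refine card_le_one.2 fun i hi j hj => φ.injective ?_
    obtain ⟨hi1, hi2⟩ := (mem_filter.1 hi).2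
    obtain ⟨hj1, hj2⟩ := (mem_filter.1 hj).2
    rcases hi' : φ i with _ | p
    · norm_num [hi', sgn] at hi2
    rcases hj' : φ j with _ | q
    · norm_num [hj', sgn] at hj2
    rw [hi'] at hi1 hi2
    rw [hj'] at hj1 hj2
    rw [clash hirr htot hi1 hi2 hj1 hj2]
  refine (card_le_card (t := (univ.filter fun i => sgn x (φ i) = 1 ∧ sgn y (φ i) = -1) ∪
    univ.filter fun i => sgn y (φ i) = 1 ∧ sgn x (φ i) = -1) fun i hi => ?_).trans
    ((card_union_le _ _).trans (Nat.add_le_add (hone x y) (hone y x)))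
  replace hi := (mem_filter.1 hi).2
  simp only [mem_union, mem_filter, mem_univ, true_and]
  rcases sgn_cases x (φ i) with h | h | h <;> rcases sgn_cases y (φ i) with h' | h' | h' <;>
    revert hi <;> norm_num [h, h']

end

/-- For all parameters there is a set of columns of signs such that two columns clash in at most
two rows, one row is constantly one, every sign vector agrees with few columns, and the number
of rows is small. -/
theorem exists_classes (t : ℕ) : ∃ s : ℕ, 0 < s ∧ ∀ e : ℕ, 3 * s < e →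
    ∃ (n : ℕ) (V : Type) (_ : Fintype V) (g : V → Fin n → ℝ) (i₀ : Fin n),
      n ≤ 2 ^ (12 * e * s + 2 * s + 1) ∧ Nonempty V ∧
      (∀ x i, g x i = 1 ∨ g x i = -1 ∨ g x i = 0) ∧ (∀ x, g x i₀ = 1) ∧
      (∀ x y, (univ.filter fun i => g x i * g y i = -1).card ≤ 2) ∧
      ∀ (h : Fin n → Bool) (S : Finset V),
        (∀ x ∈ S, ∀ i, (g x i = 1 → h i = true) ∧ (g x i = -1 → h i = false)) →
        S.card * 2 ^ (e * (t * s)) ≤ Fintype.card V := by
  obtain ⟨s, N, hs, hirr, htot, hdom⟩ := exists_tournament t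
  refine ⟨s, hs, fun e he => ?_⟩
  let φ := (Fintype.equivFin (Option (Cls N e))).symm
  refine ⟨_, Fin s × Fin s → Letter e, inferInstance, fun x i => sgn x (φ i), φ.symm none, ?_,
    ⟨fun _ _ => (false, false)⟩, fun x i => sgn_cases x _, fun x => ?_,
    clash_count hirr htot φ, fun h S hS => agree hirr htot hdom he (fun p => h (φ.symm p)) S
      fun x hx p => by simpa using hS x hx (φ.symm p)⟩
  · have := card_cls (N := N) (e := e)
    have h1 := Nat.one_le_two_pow (n := 2 * s)
    have h2 := Nat.one_le_two_pow (n := 12 * e * s)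
    rw [Fintype.card_option, pow_succ, add_comm (12 * e * s), pow_add]
    nlinarith
  · simp only [Equiv.apply_symm_apply]
    rfl

end Vale.Agent.P126
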