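import Vale.Agent.P126.Graded
import Vale.Agent.P126.Bodies

/-!
From graded classes to convex bodies with small dual covering and large primal covering.
-/

namespace Vale.Agent.P126

open Finset Metric Pointwise

variable {K : ℕ} (G : Graded K)

/-- A level in `[0, K]` as a sum of threshold indicators. -/
lemma level_eq_sum (x : Fin (2 ^ G.D)) (r : Fin G.n) :
    (G.g x r : ℝ) = ∑ i ∈ Icc 1 K, ind (i ≤ G.g x r) := by
  classical
  have h : (Icc 1 K).filter (fun i => i ≤ G.g x r) = Icc 1 (G.g x r) := by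
    ext i
    have := G.le_top x r
    simp only [mem_filter, mem_Icc]
    omega
  rw [sum_congr rfl fun i _ => (show ind (i ≤ G.g x r) = if i ≤ G.g x r then (1:ℝ) else 0 by
    unfold ind; congr), ← sum_filter, h]
  simp

/-- The mean level of a column under weights on the rows. -/
def mean (p : Fin G.n → ℝ) (x : Fin (2 ^ G.D)) : ℝ := ∑ r, p r * (G.g x r : ℝ)

/-- Every weighting of the rows has a short code, and weightings with the same code have nearly
the same mean level at every column. -/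
lemma mean_code {ε : ℝ} (hε : 0 < ε) (hKε : 10 * (K : ℝ) * ε ≤ 1) (hK : 3 ≤ K) {c γ : ℕ}
    (hc0 : 0 < c) (hc : ∀ A : ℕ, (2:ℝ) ^ (A * (Nat.log 2 (2 * (c * (A + 1) ^ 2)) + 1) ^ 2)
      * Real.exp (-(ε ^ 2 * (c * (A + 1) ^ 2 : ℕ) / 2)) ≤ ε)
    (hch : ∀ j, 1 ≤ j → j < K → G.Cheap γ j) :
    ∃ (Z : Type) (_ : Fintype Z) (B : ℕ) (code : (Fin G.n → ℝ) → Z),
      Fintype.card Z ≤ 2 ^ B ∧ γ * B ≤ K * c * G.D ∧
      ∀ p q : Fin G.n → ℝ, (∀ r, 0 ≤ p r) → ∑ r, p r = 1 → (∀ r, 0 ≤ q r) → ∑ r, q r = 1 →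
        code p = code q → ∀ x, mean G p x - mean G q x ≤ 3 := by
  classical
  set J := Icc 1 (K - 2) with hJ
  have hJm : ∀ j : ↥J, 1 ≤ j.1 ∧ j.1 + 1 < K := fun j => by
    have := mem_Icc.1 j.2; omega
  have hch' : ∀ j : ↥J, G.Cheap γ j.1 := fun j => hch _ (hJm j).1 (by have := (hJm j).2; omega)
  choose L A π hfac hcov hbud using hch'
  let k : ↥J → ℕ := fun j => c * (A j + 1) ^ 2
  have hk : ∀ j, 0 < k j := fun j => Nat.mul_pos hc0 (pow_pos (Nat.succ_pos _) _)
  let μ : (Fin G.n → ℝ) → ℕ → Fin (2 ^ G.D) → ℝ := fun p i x => ∑ r, p r * ind (i ≤ G.g x r)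
  let fr : (j : ↥J) → (Fin (k j) → Fin G.n) → Fin (2 ^ G.D) → ℝ := fun j S x =>
    (∑ l, ind (j.1 + 1 ≤ G.g x (S l))) / k j
  have hex : ∀ (p : Fin G.n → ℝ), ∀ j : ↥J, ∃ S : Fin (k j) → Fin G.n, (∀ r, 0 ≤ p r) →
      ∑ r, p r = 1 → ∀ x, μ p (j.1 + 2) x ≤ fr j S x + 5 * ε ∧ fr j S x ≤ μ p j.1 x + 5 * ε := by
    intro p j
    by_cases h : (∀ r, 0 ≤ p r) ∧ ∑ r, p r = 1
    · obtain ⟨S, hS⟩ := exists_good_sample (hcov j (j.1 + 1) (Nat.le_succ _) (hJm j).2)
        (hcov j j.1 le_rfl (by have := (hJm j).2; omega)) (hk j) h.1 h.2 hε (hc (A j))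
      exact ⟨S, fun _ _ => hS⟩
    · exact ⟨fun _ => G.null, fun h1 h2 => absurd ⟨h1, h2⟩ h⟩
  choose smp hsmp using hex
  refine ⟨(j : ↥J) → Fin (k j) → Fin (2 ^ L j), inferInstance, ∑ j, k j * L j,
    fun p j l => π j (smp p j l), ?_, ?_, ?_⟩
  · simp only [Fintype.card_pi, Fintype.card_fin, prod_const, card_univ, ← pow_mul]
    rw [prod_pow_eq_pow_sum]
    exact le_of_eq (congrArg _ (sum_congr rfl fun j _ => mul_comm _ _))
  · rw [mul_sum]
    calc ∑ j, γ * (k j * L j) ≤ ∑ _j : ↥J, c * G.D := sum_le_sum fun j _ => by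
          calc γ * (c * (A j + 1) ^ 2 * L j) ≤ c * ((A j + 1) ^ 2 * (L j + 1) * γ) := by
                rw [show c * ((A j + 1) ^ 2 * (L j + 1) * γ)
                  = γ * (c * (A j + 1) ^ 2 * (L j + 1)) by ring]
                gcongr; omega
            _ ≤ c * G.D := Nat.mul_le_mul_left _ (hbud j)
      _ ≤ _ := by
          rw [sum_const, smul_eq_mul, card_univ, Fintype.card_coe, hJ, Nat.card_Icc, mul_assoc]
          exact Nat.mul_le_mul_right _ (by omega)
  intro p q hp0 hp hq0 hq hpq x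
  have hfr : ∀ j : ↥J, fr j (smp p j) x = fr j (smp q j) x := fun j => by
    refine congrArg (· / (k j : ℝ)) (sum_congr rfl fun l _ => ind_congr ?_)
    exact hfac j x _ _ (congrFun (congrFun hpq j) l)
  have hmean : ∀ p : Fin G.n → ℝ, mean G p x = ∑ i ∈ Icc 1 K, μ p i x := by
    intro p
    simp only [mean, μ, level_eq_sum, mul_sum]
    rw [sum_comm]
  have hup : ∀ i, μ p i x ≤ 1 := fun i => by
    refine (sum_le_sum fun r _ => mul_le_of_le_one_right (hp0 r) (ind_le_one _)).trans hp.le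
  have hμ0 : ∀ i, 0 ≤ μ q i x := fun i =>
    sum_nonneg fun r _ => mul_nonneg (hq0 r) (ind_nonneg _)
  have h1 : mean G p x ≤ 2 + ∑ j : ↥J, μ p (j.1 + 2) x := by
    have hsplit : Icc 1 K = Icc 1 2 ∪ Icc 3 K := by
      ext i; simp only [mem_union, mem_Icc]; omega
    have hdis : Disjoint (Icc 1 2) (Icc 3 K) :=
      disjoint_left.2 fun i hi hi' => by simp only [mem_Icc] at hi hi'; omega
    have hmap : Icc 3 K = J.map (addRightEmbedding 2) := by
      rw [hJ, map_add_right_Icc, show K - 2 + 2 = K by omega]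
    rw [hmean, hsplit, sum_union hdis, hmap, sum_map, ← sum_coe_sort J]
    refine add_le_add ?_ le_rfl
    refine (sum_le_sum fun i _ => hup i).trans ?_
    norm_num [Nat.card_Icc]
  have h2 : ∑ j : ↥J, μ q j.1 x ≤ mean G q x := by
    rw [hmean, sum_coe_sort J fun i => μ q i x]
    exact sum_le_sum_of_subset_of_nonneg (fun i hi => by
      rw [hJ, mem_Icc] at hi; rw [mem_Icc]; omega) fun i _ _ => hμ0 i
  have h3 : ∑ j : ↥J, μ p (j.1 + 2) x ≤ ∑ j : ↥J, (μ q j.1 x + 10 * ε) := sum_le_sum fun j _ => by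
    have a1 := (hsmp p j hp0 hp x).1
    have a2 := (hsmp q j hq0 hq x).2
    have := hfr j
    linarith
  rw [sum_add_distrib, sum_const, card_univ, Fintype.card_coe, nsmul_eq_mul] at h3
  have h4 : (J.card : ℝ) * (10 * ε) ≤ 1 := by
    have : (J.card : ℝ) ≤ K := by exact_mod_cast (show J.card ≤ K by rw [hJ, Nat.card_Icc]; omega)
    nlinarith
  linarith

/-- The weights of one sign, completed on the null row. -/
noncomputable def part (w : Fin G.n → ℝ) (r : Fin G.n) : ℝ :=
  max (w r) 0 + if r = G.null then 1 - ∑ r', max (w r') 0 else 0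

lemma part_spec {w : Fin G.n → ℝ} (hw : ∑ r, |w r| ≤ 1) :
    (∀ r, 0 ≤ part G w r) ∧ ∑ r, part G w r = 1 ∧
      ∀ x, mean G (part G w) x = ∑ r, max (w r) 0 * (G.g x r : ℝ) := by
  have hle : ∑ r, max (w r) 0 ≤ 1 :=
    (sum_le_sum fun r _ => max_le (le_abs_self _) (abs_nonneg _)).trans hw
  refine ⟨fun r => ?_, ?_, fun x => ?_⟩
  · unfold part
    have := le_max_right (w r) 0
    split_ifs <;> linarith
  · simp [part, sum_add_distrib]
  · simp [mean, part, add_mul, sum_add_distrib, ite_mul, G.null_zero]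

/-- For every scale and every factor there are bodies violating the duality inequality. -/
theorem disproof (a : ℝ) (ha : 0 < a) (b : ℝ) :
    ∃ (n : ℕ) (K L : Set (Fin n → ℝ)), 1 ≤ n ∧
      IsCompact K ∧ Convex ℝ K ∧ (interior K).Nonempty ∧ -K = K ∧
      IsCompact L ∧ Convex ℝ L ∧ (interior L).Nonempty ∧ -L = L ∧
      ∃ C : Finset (Fin n → ℝ), C.Nonempty ∧
        {y : Fin n → ℝ | ∀ x ∈ L, ∑ i, x i * y i ≤ 1} ⊆
          ⋃ c ∈ C, c +ᵥ a⁻¹ • {y : Fin n → ℝ | ∀ x ∈ K, ∑ i, x i * y i ≤ 1} ∧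
        ∀ C' : Finset (Fin n → ℝ), K ⊆ ⋃ c ∈ C', c +ᵥ L →
          b * Real.log C.card < Real.log C'.card := by
  classical
  obtain ⟨K, hKdef⟩ : ∃ K, K = ⌈48 * a⌉₊ + 3 := ⟨_, rfl⟩
  have hKa : 48 * a ≤ K := by
    rw [hKdef]; push_cast; linarith [Nat.le_ceil (48 * a)]
  have hKR : (0:ℝ) < K := by exact_mod_cast (show 0 < K by omega)
  set ε : ℝ := 1 / (10 * K) with hεdef
  have hε : 0 < ε := by positivity
  have hKε : 10 * (K : ℝ) * ε ≤ 1 := le_of_eq (by rw [hεdef]; field_simp)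
  have hε1 : ε ≤ 1 := by
    rw [hεdef, div_le_one (by positivity)]
    have : (3:ℝ) ≤ K := by exact_mod_cast (show 3 ≤ K by omega)
    linarith
  obtain ⟨c, hc0, hc⟩ := exists_length hε hε1
  set N := ⌈max b 0⌉₊ with hN
  obtain ⟨G, hD, hch⟩ := exists_graded K (by omega) (8 * K * c * N + 8)
  obtain ⟨Z, _, B, code, hZ, hB, hclose⟩ := mean_code G hε hKε (by omega) hc0 hc hch
  set g : Fin (2 ^ G.D) → Fin G.n → ℝ := fun x r => (G.g x r : ℝ) / K with hg
  set δ : ℝ := 1 / (16 * a) with hδdef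
  have hδ : 0 < δ := by positivity
  have : Nonempty (Fin (2 ^ G.D)) := ⟨⟨0, Nat.two_pow_pos _⟩⟩
  obtain ⟨hc1, hc2, hc3, hc4⟩ := body_props g hδ
  set code₂ : (Fin G.n → ℝ) → Z × Z := fun w => (code (part G w), code (part G (-w))) with hcode₂
  set rep : Z × Z → Fin G.n → ℝ := fun z =>
    if h : ∃ w, ∑ r, |w r| ≤ 1 ∧ code₂ w = z then h.choose else 0 with hrep
  set C : Finset (Fin G.n → ℝ) := univ.image fun z => (4:ℝ) • rep z with hC
  have hCne : C.Nonempty := univ_nonempty_iff.2 ⟨code₂ 0⟩ |>.image _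
  refine ⟨G.n, body g δ, closedBall 0 (1 / 4), G.null.pos, hc1, hc2, hc3, hc4,
    isCompact_closedBall _ _, convex_closedBall _ _, ?_, by rw [neg_closedBall, neg_zero], C, hCne,
    fun y hy => ?_, fun C' hC' => ?_⟩
  · exact ⟨0, mem_interior.2 ⟨ball 0 (1 / 4), ball_subset_closedBall, isOpen_ball,
      mem_ball_self (by norm_num)⟩⟩
  · set w : Fin G.n → ℝ := (1 / 4 : ℝ) • y with hw
    have hw1 : ∑ r, |w r| ≤ 1 := by
      simp only [hw, Pi.smul_apply, smul_eq_mul, abs_mul, ← mul_sum]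
      rw [abs_of_pos (by norm_num : (0:ℝ) < 1 / 4)]
      exact sum_abs_of_mem_polar (by norm_num) hy
    have hex : ∃ v, ∑ r, |v r| ≤ 1 ∧ code₂ v = code₂ w := ⟨w, hw1, rfl⟩
    set v := rep (code₂ w) with hv
    obtain ⟨hv1, hvc⟩ : ∑ r, |v r| ≤ 1 ∧ code₂ v = code₂ w := by
      simp only [hv, hrep]; rw [dif_pos hex]; exact hex.choose_spec
    have hdot : ∀ x, |∑ r, g x r * (w r - v r)| ≤ 6 / K := by
      intro x
      have hnw : ∀ u : Fin G.n → ℝ, ∑ r, |u r| ≤ 1 → ∑ r, |(-u) r| ≤ 1 := fun u hu => by simpa using hu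
      have hexp : ∀ u : Fin G.n → ℝ, ∑ r, |u r| ≤ 1 →
          ∑ r, (G.g x r : ℝ) * u r = mean G (part G u) x - mean G (part G (-u)) x := by
        intro u hu
        rw [(part_spec G hu).2.2, (part_spec G (hnw u hu)).2.2, ← sum_sub_distrib]
        refine sum_congr rfl fun r _ => ?_
        rw [← sub_mul, mul_comm]
        congr 1
        rcases le_total 0 (u r) with h | h <;> simp [h]
      have h0 : ∑ r, g x r * (w r - v r)
          = ((∑ r, (G.g x r : ℝ) * w r) - ∑ r, (G.g x r : ℝ) * v r) / K := by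
        rw [← sum_sub_distrib, sum_div]
        exact sum_congr rfl fun r _ => by simp only [hg]; ring
      have close : ∀ u u' : Fin G.n → ℝ, ∑ r, |u r| ≤ 1 → ∑ r, |u' r| ≤ 1 →
          code (part G u) = code (part G u') → mean G (part G u) x - mean G (part G u') x ≤ 3 :=
        fun u u' hu hu' h => hclose _ _ (part_spec G hu).1 (part_spec G hu).2.1
          (part_spec G hu').1 (part_spec G hu').2.1 h x
      have e1 := congrArg Prod.fst hvc
      have e2 := congrArg Prod.snd hvc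
      simp only [hcode₂] at e1 e2
      have a1 := close w v hw1 hv1 e1.symm
      have a2 := close v w hv1 hw1 e1
      have a3 := close (-w) (-v) (hnw w hw1) (hnw v hv1) e2.symm
      have a4 := close (-v) (-w) (hnw v hv1) (hnw w hw1) e2
      rw [h0, abs_div, abs_of_pos hKR, div_le_div_iff_of_pos_right hKR, hexp w hw1, hexp v hv1,
        abs_le]
      constructor <;> linarith
    refine Set.mem_iUnion₂.2 ⟨(4:ℝ) • v, mem_image_of_mem _ (mem_univ _), y - (4:ℝ) • v, ?_,
      add_sub_cancel _ _⟩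
    rw [Set.mem_inv_smul_set_iff₀ ha.ne']
    intro x hx
    have h1 := dot_le_of_mem_body hdot hx
    have h2 : ∑ i, x i * (a • (y - (4:ℝ) • v)) i = 4 * a * ∑ i, x i * (w i - v i) := by
      rw [mul_sum]
      refine sum_congr rfl fun i _ => ?_
      simp only [hw, Pi.smul_apply, Pi.sub_apply, smul_eq_mul]
      ring
    have h3 : ∑ i, |w i - v i| ≤ 2 := by
      refine (sum_le_sum fun i _ => abs_sub (w i) (v i)).trans ?_
      rw [sum_add_distrib]
      linarith
    rw [h2]
    refine (mul_le_mul_of_nonneg_left h1 (by positivity)).trans ?_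
    have h4 : 4 * a * (6 / K) ≤ 1 / 2 := by
      rw [mul_div_assoc', div_le_iff₀ hKR]; linarith
    have h5 : 4 * a * δ * 2 = 1 / 2 := by rw [hδdef]; field_simp; ring
    nlinarith [mul_le_mul_of_nonneg_left h3 (by positivity : 0 ≤ 4 * a * δ)]
  · have hmem : ∀ x, ∃ c ∈ C', ∀ r, |g x r - c r| ≤ 1 / 4 := by
      intro x
      have h1 : g x ∈ body g δ :=
        ⟨g x, subset_convexHull _ _ (Or.inl ⟨x, rfl⟩), 0, mem_closedBall_self hδ.le, add_zero _⟩
      obtain ⟨c, hcC, z, hz, hzc⟩ := Set.mem_iUnion₂.1 (hC' h1)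
      refine ⟨c, hcC, fun r => ?_⟩
      have h2 := (norm_le_pi_norm z r).trans (mem_closedBall_zero_iff.1 hz)
      rw [Real.norm_eq_abs] at h2
      rwa [← hzc, show (c +ᵥ z) r - c r = z r by simp]
    choose f hfC hf using hmem
    have hfib : ∀ c ∈ C', (univ.filter fun x => f x = c).card ^ 2 ≤ 4 * 2 ^ G.D := by
      intro c _
      rw [sq, ← card_product]
      refine (card_le_card fun z hz => mem_filter.2 ⟨mem_univ _, ?_⟩).trans G.bad
      rintro ⟨r, h1, h2⟩
      obtain ⟨ha', hb'⟩ := mem_product.1 hz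
      have a1 := hf z.1 r
      have a2 := hf z.2 r
      rw [(mem_filter.1 ha').2] at a1
      rw [(mem_filter.1 hb').2] at a2
      simp only [hg, h1, h2, Nat.cast_zero, zero_div, div_self hKR.ne', zero_sub, abs_neg] at a1 a2
      rw [abs_le] at a1 a2
      linarith
    have hprim : 2 ^ G.D ≤ 4 * C'.card ^ 2 := by
      have h1 : (2 ^ G.D) ^ 2 ≤ C'.card * (C'.card * (4 * 2 ^ G.D)) := by
        have h := sq_sum_le_card_mul_sum_sq (s := C')
          (f := fun c => (univ.filter fun x => f x = c).card)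
        rw [← card_eq_sum_card_fiberwise fun x _ => hfC x, card_univ, Fintype.card_fin] at h
        refine h.trans (Nat.mul_le_mul_left _ ?_)
        exact (sum_le_sum hfib).trans_eq (by rw [sum_const, smul_eq_mul])
      refine Nat.le_of_mul_le_mul_right ?_ (Nat.two_pow_pos G.D)
      nlinarith
    have hCc : C.card ≤ 2 ^ (2 * B) := by
      refine card_image_le.trans ?_
      rw [card_univ, Fintype.card_prod, two_mul, pow_add]
      exact Nat.mul_le_mul hZ hZ
    have hC'pos : (0:ℝ) < C'.card := by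
      exact_mod_cast (show 0 < C'.card by
        have := Nat.two_pow_pos G.D
        by_contra h
        rw [Nat.le_zero.1 (not_lt.1 h)] at hprim
        omega)
    have hl := Real.log_pos (one_lt_two : (1:ℝ) < 2)
    have hlow : ((G.D : ℝ) - 2) * Real.log 2 ≤ 2 * Real.log C'.card := by
      have h := Real.log_le_log (by positivity)
        (show ((2:ℝ) ^ G.D) ≤ 2 ^ 2 * (C'.card : ℝ) ^ 2 by norm_num; exact_mod_cast hprim)
      rw [Real.log_pow, Real.log_mul (by norm_num) (pow_pos hC'pos 2).ne', Real.log_pow,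
        Real.log_pow] at h
      push_cast at h
      linarith
    have hup : Real.log C.card ≤ (2 * B : ℝ) * Real.log 2 := by
      have h := Real.log_le_log (by exact_mod_cast hCne.card_pos)
        (show (C.card : ℝ) ≤ 2 ^ (2 * B) by exact_mod_cast hCc)
      rw [Real.log_pow] at h
      push_cast at h
      exact h
    have h8 : 8 * (N * B) ≤ G.D := by
      refine Nat.le_of_mul_le_mul_left ?_ (Nat.mul_pos (show 0 < K by omega) hc0)
      calc K * c * (8 * (N * B)) ≤ (8 * K * c * N + 8) * B := by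
            rw [add_mul]; exact le_add_right (le_of_eq (by ring))
        _ ≤ K * c * G.D := hB
    have h8R : 8 * ((N:ℝ) * B) ≤ G.D := by exact_mod_cast h8
    have hD8 : (8:ℝ) ≤ G.D := by exact_mod_cast (show 8 ≤ G.D by omega)
    have hbN : max b 0 ≤ N := Nat.le_ceil _
    calc b * Real.log C.card ≤ max b 0 * Real.log C.card :=
          mul_le_mul_of_nonneg_right (le_max_left _ _)
            (Real.log_nonneg (by exact_mod_cast hCne.card_pos))
      _ ≤ (N:ℝ) * ((2 * B : ℝ) * Real.log 2) :=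
          mul_le_mul hbN hup (Real.log_nonneg (by exact_mod_cast hCne.card_pos)) (by positivity)
      _ < ((G.D : ℝ) - 2) * Real.log 2 / 2 := by nlinarith
      _ ≤ Real.log C'.card := by linarith

end Vale.Agent.P126
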