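import Mathlib

/-!
Uniform deviation for pairs of events admitting small covers on finite tuples.
-/

namespace Vale.Agent.P126

open Finset

/-- The indicator of a proposition. -/
noncomputable def ind (P : Prop) : ℝ := by
  classical exact if P then 1 else 0

lemma ind_nonneg (P : Prop) : 0 ≤ ind P := by
  unfold ind; split_ifs <;> norm_num

lemma ind_le_one (P : Prop) : ind P ≤ 1 := by
  unfold ind; split_ifs <;> norm_num

lemma ind_le {P Q : Prop} (h : P → Q) : ind P ≤ ind Q := by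
  unfold ind
  split_ifs with h1 h2 <;> first | exact (h2 (h h1)).elim | norm_num

lemma ind_not (P : Prop) : ind (¬P) = 1 - ind P := by
  unfold ind; split_ifs <;> norm_num

lemma ind_congr {P Q : Prop} (h : P ↔ Q) : ind P = ind Q := by rw [propext h]

variable {Ω Y : Type} [Fintype Ω]

/-- Pairs of events whose restrictions to a tuple are separated by few Boolean vectors. -/
def Covered (hi lo : Y → Ω → Prop) (A : ℕ) : Prop :=
  ∀ (ι : Type) [Fintype ι], ∀ w : ι → Ω, ∃ H : Finset (ι → Bool),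
    H.card ≤ 2 ^ (A * (Nat.log 2 (Fintype.card ι) + 1) ^ 2) ∧
      ∀ y, ∃ h ∈ H, ∀ i, (hi y (w i) → h i = true) ∧ (h i = true → lo y (w i))

omit [Fintype Ω] in
lemma Covered.compl {hi lo : Y → Ω → Prop} {A : ℕ} (h : Covered hi lo A) :
    Covered (fun y r => ¬lo y r) (fun y r => ¬hi y r) A := by
  classical
  intro ι _ w
  obtain ⟨H, hH, hcov⟩ := h ι w
  refine ⟨H.image fun f i => !f i, card_image_le.trans hH, fun y => ?_⟩
  obtain ⟨f, hf, hfi⟩ := hcov y
  refine ⟨_, mem_image_of_mem _ hf, fun i => ⟨fun h1 => ?_, fun h1 h2 => ?_⟩⟩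
  · cases hb : f i
    · simp [hb]
    · exact absurd ((hfi i).2 hb) h1
  · simp [(hfi i).1 h2] at h1

/-- The weight of a tuple under independent choices. -/
def wt (p : Ω → ℝ) {k : ℕ} (S : Fin k → Ω) : ℝ := ∏ l, p (S l)

lemma sum_wt {p : Ω → ℝ} (hp : ∑ r, p r = 1) (k : ℕ) : ∑ S : Fin k → Ω, wt p S = 1 := by
  unfold wt
  rw [← Fintype.prod_sum fun (_ : Fin k) r => p r]
  simp [hp]

lemma sum_wt_apply {p : Ω → ℝ} (hp : ∑ r, p r = 1) {k : ℕ} (l : Fin k) (f : Ω → ℝ) :
    ∑ S : Fin k → Ω, wt p S * f (S l) = ∑ r, p r * f r := by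
  classical
  have h : ∀ S : Fin k → Ω, wt p S * f (S l)
      = ∏ l', p (S l') * (if l' = l then f (S l') else 1) := fun S => by
    rw [prod_mul_distrib, prod_ite_eq' univ l]
    simp [wt]
  rw [sum_congr rfl fun S _ => h S,
    ← Fintype.prod_sum fun (l' : Fin k) r => p r * if l' = l then f r else 1,
    prod_eq_single l]
  · simp
  · intro b _ hb
    simp [hb, hp]
  · simp

/-- Few sign vectors push a bounded sum above a threshold. -/
lemma sign_count {k : ℕ} (d : Fin k → ℝ) (hd : ∀ l, |d l| ≤ 1) {ε : ℝ} (hε : 0 ≤ ε) :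
    ((univ.filter fun σ : Fin k → Bool => ε * k ≤ ∑ l, if σ l then d l else -d l).card : ℝ)
      ≤ 2 ^ k * Real.exp (-(ε ^ 2 * k / 2)) := by
  set E : (Fin k → Bool) → ℝ := fun σ => Real.exp (ε * ∑ l, if σ l then d l else -d l) with hE
  have h1 : ((univ.filter fun σ : Fin k → Bool => ε * k ≤ ∑ l, if σ l then d l else -d l).card : ℝ)
      * Real.exp (ε * (ε * k)) ≤ ∑ σ, E σ := by
    rw [← nsmul_eq_mul, ← sum_const]
    refine (sum_le_sum fun σ hσ => ?_).trans
      (sum_le_sum_of_subset_of_nonneg (subset_univ _) fun σ _ _ => (Real.exp_pos _).le)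
    exact Real.exp_le_exp.2 (mul_le_mul_of_nonneg_left (mem_filter.1 hσ).2 hε)
  have h2 : ∑ σ, E σ ≤ 2 ^ k * Real.exp (k * (ε ^ 2 / 2)) := by
    have : ∑ σ, E σ = ∏ l, (Real.exp (ε * d l) + Real.exp (-(ε * d l))) := by
      simp only [hE, mul_sum, Real.exp_sum]
      rw [← Fintype.prod_sum fun l (b : Bool) => Real.exp (ε * if b then d l else -d l)]
      simp
    rw [this]
    calc ∏ l, (Real.exp (ε * d l) + Real.exp (-(ε * d l)))
        ≤ ∏ _l : Fin k, (2 * Real.exp (ε ^ 2 / 2)) := by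
          refine prod_le_prod (fun l _ => by positivity) fun l _ => ?_
          have h := Real.cosh_le_exp_half_sq (ε * d l)
          rw [Real.cosh_eq] at h
          have h3 : Real.exp ((ε * d l) ^ 2 / 2) ≤ Real.exp (ε ^ 2 / 2) := by
            refine Real.exp_le_exp.2 ?_
            rw [mul_pow, ← sq_abs (d l)]
            nlinarith [mul_le_mul_of_nonneg_left (pow_le_one₀ (n := 2) (abs_nonneg _) (hd l))
              (sq_nonneg ε)]
          linarith
      _ = _ := by
          rw [prod_const, card_univ, Fintype.card_fin, mul_pow, ← Real.exp_nat_mul]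
  have h3 : (2:ℝ) ^ k * Real.exp (k * (ε ^ 2 / 2))
      = 2 ^ k * Real.exp (-(ε ^ 2 * k / 2)) * Real.exp (ε * (ε * k)) := by
    rw [mul_assoc (_ : ℝ), ← Real.exp_add]
    congr 2
    ring
  exact le_of_mul_le_mul_right ((h1.trans h2).trans_eq h3) (Real.exp_pos _)

/-- The expected one-sided deviation, for any choice of the tested point. -/
lemma deviation [Fintype Y] {hi lo : Y → Ω → Prop} {A k : ℕ} (hcov : Covered hi lo A)
    (hk : 0 < k) {p : Ω → ℝ} (hp0 : ∀ r, 0 ≤ p r) (hp : ∑ r, p r = 1) {ε : ℝ} (hε : 0 < ε)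
    (hN : (2:ℝ) ^ (A * (Nat.log 2 (2 * k) + 1) ^ 2) * Real.exp (-(ε ^ 2 * k / 2)) ≤ ε)
    (sel : (Fin k → Ω) → Option Y) :
    ∑ S : Fin k → Ω, wt p S *
      ((sel S).elim 0 fun y => (∑ r, p r * ind (hi y r)) - (∑ l, ind (lo y (S l))) / k)
      ≤ 2 * ε := by
  classical
  have hkR : (0:ℝ) < k := by exact_mod_cast hk
  set dev : (Fin k → Ω) → (Fin k → Ω) → Option Y → ℝ := fun S S' o =>
    o.elim 0 fun y => (∑ l, (ind (hi y (S' l)) - ind (lo y (S l)))) / k with hdev
  set G : (Fin k → Ω) × (Fin k → Ω) → ℝ := fun z =>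
    (univ : Finset (Option Y)).sup' univ_nonempty (dev z.1 z.2) with hG
  set W : (Fin k → Ω) × (Fin k → Ω) → ℝ := fun z => wt p z.1 * wt p z.2 with hW
  have hwt : ∀ S : Fin k → Ω, 0 ≤ wt p S := fun S => prod_nonneg fun l _ => hp0 _
  have hW0 : ∀ z, 0 ≤ W z := fun z => mul_nonneg (hwt _) (hwt _)
  have hW1 : ∑ z, W z = 1 := by
    rw [Fintype.sum_prod_type, hW]
    simp only [← mul_sum, sum_wt hp, mul_one]
  have hstep : ∀ S : Fin k → Ω, ∀ o : Option Y,
      (o.elim 0 fun y => (∑ r, p r * ind (hi y r)) - (∑ l, ind (lo y (S l))) / k)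
        = ∑ S', wt p S' * dev S S' o := by
    intro S o
    rcases o with _ | y
    · simp [hdev]
    · have e1 : ∑ S' : Fin k → Ω, wt p S' * ∑ l, ind (hi y (S' l))
          = k * ∑ r, p r * ind (hi y r) := by
        simp only [mul_sum]
        rw [sum_comm, sum_congr rfl fun l _ => sum_wt_apply hp l fun r => ind (hi y r)]
        simp [mul_sum]
      simp only [hdev, Option.elim_some, ← mul_div_assoc]
      rw [← sum_div]
      simp only [sum_sub_distrib, mul_sub]
      rw [e1, ← sum_mul, sum_wt hp, one_mul, sub_div, mul_div_cancel_left₀ _ hkR.ne']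
  have hmain : ∑ S : Fin k → Ω, wt p S *
      ((sel S).elim 0 fun y => (∑ r, p r * ind (hi y r)) - (∑ l, ind (lo y (S l))) / k)
      ≤ ∑ z, W z * G z := by
    rw [Fintype.sum_prod_type]
    refine sum_le_sum fun S _ => ?_
    rw [hstep S (sel S), mul_sum]
    refine sum_le_sum fun S' _ => ?_
    simp only [hW, mul_assoc]
    exact mul_le_mul_of_nonneg_left (mul_le_mul_of_nonneg_left
      (le_sup' (dev S S') (mem_univ _)) (hwt _)) (hwt _)
  set sw : (Fin k → Bool) → (Fin k → Ω) × (Fin k → Ω) → (Fin k → Ω) × (Fin k → Ω) :=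
    fun σ z => (fun l => if σ l then z.1 l else z.2 l, fun l => if σ l then z.2 l else z.1 l)
    with hsw
  have hinv : ∀ σ, Function.Involutive (sw σ) := by
    intro σ z
    refine Prod.ext (funext fun l => ?_) (funext fun l => ?_) <;>
      · by_cases h : σ l = true <;> simp [hsw, h]
  have hWsw : ∀ σ z, W (sw σ z) = W z := by
    intro σ z
    simp only [hW, wt, ← prod_mul_distrib, hsw]
    refine prod_congr rfl fun l _ => ?_
    split_ifs <;> ring
  have hsum : ∀ σ, ∑ z, W (z) * G (sw σ z) = ∑ z, W z * G z := by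
    intro σ
    refine (sum_congr rfl fun z _ => by rw [← hWsw σ z]).trans ?_
    exact Equiv.sum_comp (hinv σ).toPerm fun z => W z * G z
  have havg : ∀ z, ∑ σ, G (sw σ z) ≤ 2 ^ k * (2 * ε) := by
    intro z
    obtain ⟨H, hHc, hH⟩ := hcov (Fin k ⊕ Fin k) (Sum.elim z.1 z.2)
    simp only [Fintype.card_sum, Fintype.card_fin, ← two_mul] at hHc
    set d : (Fin k ⊕ Fin k → Bool) → Fin k → ℝ := fun h l =>
      (if h (Sum.inr l) then (1:ℝ) else 0) - if h (Sum.inl l) then 1 else 0 with hd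
    have hd1 : ∀ h l, |d h l| ≤ 1 := fun h l => by
      simp only [hd]; split_ifs <;> norm_num
    set bad : (Fin k ⊕ Fin k → Bool) → Finset (Fin k → Bool) := fun h =>
      univ.filter fun σ => ε * k ≤ ∑ l, if σ l then d h l else -d h l with hbad
    have hptw : ∀ σ, G (sw σ z) ≤ ε + ∑ h ∈ H, if σ ∈ bad h then (1:ℝ) else 0 := by
      intro σ
      have hnn : ∀ h ∈ H, (0:ℝ) ≤ if σ ∈ bad h then (1:ℝ) else 0 := fun h _ => by
        split_ifs <;> norm_num
      refine sup'_le _ _ fun o _ => ?_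
      rcases o with _ | y
      · exact add_nonneg hε.le (sum_nonneg hnn)
      obtain ⟨h, hh, hhy⟩ := hH y
      have hval : dev (sw σ z).1 (sw σ z).2 (some y)
          ≤ (∑ l, if σ l then d h l else -d h l) / k := by
        simp only [hdev, Option.elim_some]
        refine div_le_div_of_nonneg_right (sum_le_sum fun l _ => ?_) hkR.le
        have up : ∀ i, ind (hi y (Sum.elim z.1 z.2 i)) ≤ if h i then (1:ℝ) else 0 := fun i => by
          by_cases hb : h i = true
          · rw [if_pos hb]; exact ind_le_one _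
          · rw [if_neg hb, ind, if_neg fun hh' => hb ((hhy i).1 hh')]
        have dn : ∀ i, (if h i then (1:ℝ) else 0) ≤ ind (lo y (Sum.elim z.1 z.2 i)) := fun i => by
          by_cases hb : h i = true
          · rw [if_pos hb, ind, if_pos ((hhy i).2 hb)]
          · rw [if_neg hb]; exact ind_nonneg _
        have u1 := up (Sum.inl l)
        have u2 := up (Sum.inr l)
        have d1 := dn (Sum.inl l)
        have d2 := dn (Sum.inr l)
        simp only [Sum.elim_inl, Sum.elim_inr] at u1 u2 d1 d2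
        simp only [hsw, hd]
        cases σ l <;> simp only [if_true, Bool.false_eq_true, if_false] <;> linarith
      by_cases hσ : σ ∈ bad h
      · have h1 : dev (sw σ z).1 (sw σ z).2 (some y) ≤ 1 := by
          simp only [hdev, Option.elim_some]
          rw [div_le_one hkR]
          refine (sum_le_sum fun l _ => (sub_le_self _ (ind_nonneg _)).trans (ind_le_one _)).trans ?_
          simp
        have h2 := single_le_sum hnn hh
        rw [if_pos hσ] at h2
        linarith
      · have h1 : ∑ l, (if σ l then d h l else -d h l) ≤ ε * k :=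
          le_of_lt (not_le.1 fun hle => hσ (mem_filter.2 ⟨mem_univ _, hle⟩))
        have h2 := sum_nonneg hnn
        have h3 : (∑ l, if σ l then d h l else -d h l) / k ≤ ε := by
          rwa [div_le_iff₀ hkR]
        linarith
    refine (sum_le_sum fun σ _ => hptw σ).trans ?_
    rw [sum_add_distrib, sum_const, card_univ, nsmul_eq_mul, sum_comm]
    simp only [Fintype.card_fun, Fintype.card_bool, Fintype.card_fin, sum_ite_mem, univ_inter,
      sum_const, nsmul_eq_mul, mul_one]
    have h1 : ∑ h ∈ H, ((bad h).card : ℝ) ≤ 2 ^ k * ε := by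
      refine (sum_le_sum fun h _ => sign_count (d h) (hd1 h) hε.le).trans ?_
      rw [sum_const, nsmul_eq_mul, ← mul_assoc, mul_comm (H.card : ℝ), mul_assoc]
      refine mul_le_mul_of_nonneg_left (le_trans ?_ hN) (by positivity)
      exact mul_le_mul_of_nonneg_right (by exact_mod_cast hHc) (Real.exp_pos _).le
    push_cast
    linarith
  have hfin : (2:ℝ) ^ k * ∑ z, W z * G z ≤ 2 ^ k * (2 * ε) := by
    calc (2:ℝ) ^ k * ∑ z, W z * G z = ∑ σ : Fin k → Bool, ∑ z, W z * G (sw σ z) := by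
          simp [hsum]
      _ = ∑ z, W z * ∑ σ : Fin k → Bool, G (sw σ z) := by
          rw [sum_comm]; simp only [mul_sum]
      _ ≤ ∑ z, W z * (2 ^ k * (2 * ε)) :=
          sum_le_sum fun z _ => mul_le_mul_of_nonneg_left (havg z) (hW0 z)
      _ = _ := by rw [← sum_mul, hW1, one_mul]
  exact hmain.trans (le_of_mul_le_mul_left hfin (by positivity))

/-- A single tuple is good for two pairs of events at once, from either side. -/
lemma exists_good_sample [Fintype Y] {hi lo hi' lo' : Y → Ω → Prop} {A k : ℕ}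
    (hcov : Covered hi lo A) (hcov' : Covered hi' lo' A) (hk : 0 < k) {p : Ω → ℝ}
    (hp0 : ∀ r, 0 ≤ p r) (hp : ∑ r, p r = 1) {ε : ℝ} (hε : 0 < ε)
    (hN : (2:ℝ) ^ (A * (Nat.log 2 (2 * k) + 1) ^ 2) * Real.exp (-(ε ^ 2 * k / 2)) ≤ ε) :
    ∃ S : Fin k → Ω, ∀ y, (∑ r, p r * ind (hi y r)) ≤ (∑ l, ind (lo y (S l))) / k + 5 * ε ∧
      (∑ l, ind (hi' y (S l))) / k ≤ (∑ r, p r * ind (lo' y r)) + 5 * ε := by
  classical
  by_contra hcon
  push Not at hcon
  set f : (Fin k → Ω) → Option Y := fun S =>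
    if h : ∃ y, (∑ l, ind (lo y (S l))) / k + 5 * ε < ∑ r, p r * ind (hi y r) then some h.choose
      else none with hf
  set f' : (Fin k → Ω) → Option Y := fun S =>
    if h : ∃ y, (∑ r, p r * ind (lo' y r)) + 5 * ε < (∑ l, ind (hi' y (S l))) / k
      then some h.choose else none with hf'
  set v : (Fin k → Ω) → ℝ := fun S =>
    (f S).elim 0 fun y => (∑ r, p r * ind (hi y r)) - (∑ l, ind (lo y (S l))) / k with hv
  set v' : (Fin k → Ω) → ℝ := fun S =>
    (f' S).elim 0 fun y => (∑ r, p r * ind (¬lo' y r)) - (∑ l, ind (¬hi' y (S l))) / k with hv'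
  have h1 : ∑ S, wt p S * v S ≤ 2 * ε := deviation hcov hk hp0 hp hε hN f
  have h2 : ∑ S, wt p S * v' S ≤ 2 * ε := deviation hcov'.compl hk hp0 hp hε hN f'
  have hkR : (k:ℝ) ≠ 0 := Nat.cast_ne_zero.2 hk.ne'
  have heq : ∀ y (S : Fin k → Ω), (∑ r, p r * ind (¬lo' y r)) - (∑ l, ind (¬hi' y (S l))) / k
      = (∑ l, ind (hi' y (S l))) / k - ∑ r, p r * ind (lo' y r) := by
    intro y S
    simp only [ind_not, mul_sub, sum_sub_distrib, mul_one, hp, sum_const, card_univ,
      Fintype.card_fin, nsmul_eq_mul, sub_div, div_self hkR]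
    ring
  have hbig : ∀ S, 5 * ε ≤ v S + v' S := by
    intro S
    obtain ⟨y, hy⟩ := hcon S
    by_cases hex : ∃ y, (∑ l, ind (lo y (S l))) / k + 5 * ε < ∑ r, p r * ind (hi y r)
    · have e : f S = some hex.choose := dif_pos hex
      have := hex.choose_spec
      have h0 : 0 ≤ v' S := by
        by_cases hex' : ∃ y, (∑ r, p r * ind (lo' y r)) + 5 * ε < (∑ l, ind (hi' y (S l))) / k
        · have e' : f' S = some hex'.choose := dif_pos hex'
          have := hex'.choose_spec
          simp only [hv', e', Option.elim_some, heq]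
          linarith
        · simp [hv', show f' S = none from dif_neg hex']
      simp only [hv, e, Option.elim_some]
      linarith
    · have h' : (∑ r, p r * ind (lo' y r)) + 5 * ε < (∑ l, ind (hi' y (S l))) / k :=
        hy (not_lt.1 fun h => hex ⟨y, h⟩)
      have hex' : ∃ y, (∑ r, p r * ind (lo' y r)) + 5 * ε < (∑ l, ind (hi' y (S l))) / k := ⟨y, h'⟩
      have e' : f' S = some hex'.choose := dif_pos hex'
      have := hex'.choose_spec
      simp only [hv, show f S = none from dif_neg hex, hv', e', Option.elim_none, Option.elim_some,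
        heq]
      linarith
  have h3 : ∑ S, wt p S * (5 * ε) ≤ ∑ S, (wt p S * v S + wt p S * v' S) :=
    sum_le_sum fun S _ => by
      rw [← mul_add]
      exact mul_le_mul_of_nonneg_left (hbig S) (prod_nonneg fun l _ => hp0 _)
  rw [← sum_mul, sum_wt hp, one_mul, sum_add_distrib] at h3
  linarith

/-- A tuple length quadratic in the cover exponent suffices. -/
lemma exists_length {ε : ℝ} (hε : 0 < ε) (hε1 : ε ≤ 1) : ∃ c : ℕ, 0 < c ∧ ∀ A : ℕ,
    (2:ℝ) ^ (A * (Nat.log 2 (2 * (c * (A + 1) ^ 2)) + 1) ^ 2)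
      * Real.exp (-(ε ^ 2 * (c * (A + 1) ^ 2 : ℕ) / 2)) ≤ ε := by
  obtain ⟨q, hq⟩ : ∃ q : ℕ, 52 / ε ^ 3 ≤ q := ⟨_, Nat.le_ceil _⟩
  rw [div_le_iff₀ (by positivity)] at hq
  have he3 : ε ^ 3 ≤ ε := by nlinarith [mul_le_one₀ hε1 hε.le hε1]
  have hq1 : 1 ≤ (q:ℝ) * ε := by nlinarith [Nat.cast_nonneg (α := ℝ) q]
  have hq0 : (0:ℝ) < q := by nlinarith [Nat.cast_nonneg (α := ℝ) q]
  refine ⟨q ^ 2, pow_pos (by exact_mod_cast hq0) _, fun A => ?_⟩
  set k := q ^ 2 * (A + 1) ^ 2 with hk
  set l := Nat.log 2 (2 * k) + 1 with hl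
  have hkpos : 0 < k := by
    have : 0 < q := by exact_mod_cast hq0
    positivity
  have hpoly : ∀ x : ℕ, x ^ 4 ≤ 32 * 2 ^ x := by
    intro x
    induction x with
    | zero => simp
    | succ x ih =>
      rcases Nat.lt_or_ge x 7 with h | h
      · interval_cases x <;> norm_num
      · rw [pow_succ 2 x]
        nlinarith [Nat.mul_le_mul_left (x ^ 3) h, Nat.mul_le_mul_left (x ^ 2) h,
          Nat.mul_le_mul_left x h]
  have h4 : l ^ 4 ≤ 128 * k := by
    refine (hpoly l).trans ?_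
    rw [hl, pow_succ]
    have := Nat.pow_log_le_self 2 (x := 2 * k) (by omega)
    omega
  have hl2 : ((l:ℝ)) ^ 2 ≤ 12 * (q * (A + 1)) := by
    refine le_of_pow_le_pow_left₀ two_ne_zero (by positivity) ?_
    have : ((l:ℝ)) ^ 4 ≤ 128 * k := by exact_mod_cast h4
    rw [hk] at this
    push_cast at this
    nlinarith [sq_nonneg ((q:ℝ) * (A + 1))]
  have hl2' : ((A * l ^ 2 : ℕ) : ℝ) ≤ 12 * q * (A + 1) ^ 2 := by
    push_cast
    calc (A:ℝ) * (l:ℝ) ^ 2 ≤ (A + 1) * (12 * (q * (A + 1))) :=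
          mul_le_mul (by linarith) hl2 (by positivity) (by positivity)
      _ = _ := by ring
  have hmain : ((A * l ^ 2 : ℕ) : ℝ) * Real.log 2 - Real.log ε ≤ ε ^ 2 * k / 2 := by
    have h5 : ((A * l ^ 2 : ℕ) : ℝ) * Real.log 2 ≤ 12 * q * (A + 1) ^ 2 :=
      le_trans (mul_le_of_le_one_right (by positivity) (by linarith [Real.log_two_lt_d9])) hl2'
    have h6 : -Real.log ε ≤ q * (A + 1) ^ 2 := by
      have := Real.log_le_sub_one_of_pos (inv_pos.2 hε)
      rw [Real.log_inv] at this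
      have h7 : ε⁻¹ ≤ q := by rwa [inv_le_iff_one_le_mul₀ hε]
      have h8 : (q:ℝ) * 1 ≤ q * (A + 1) ^ 2 :=
        mul_le_mul_of_nonneg_left (one_le_pow₀ (by linarith [Nat.cast_nonneg (α := ℝ) A])) hq0.le
      linarith
    have h9 : 26 * (q * (A + 1 : ℝ) ^ 2) ≤ ε ^ 2 * k := by
      rw [hk]; push_cast
      have : 26 ≤ ε ^ 2 * q := by nlinarith
      calc 26 * ((q:ℝ) * (A + 1) ^ 2) ≤ (ε ^ 2 * q) * (q * (A + 1) ^ 2) := by gcongr
        _ = _ := by ring
    linarith
  rw [← Real.rpow_natCast, Real.rpow_def_of_pos two_pos, ← Real.exp_add,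
    ← Real.le_log_iff_exp_le hε]
  linarith

end Vale.Agent.P126
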