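import Vale.Agent.P126.Classes
import Vale.Agent.P126.Sampling

/-!
Graded classes: matrices with `K + 1` levels in which almost all pairs of columns are separated by
the extreme levels while every threshold between neighbouring levels is simple.
-/

namespace Vale.Agent.P126

open Finset

/-- A matrix with levels `0, …, K`, with `2 ^ D` columns, in which all but few ordered pairs of
columns have a row with top level in the first and bottom level in the second. -/
structure Graded (K : ℕ) where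
  D : ℕ
  n : ℕ
  g : Fin (2 ^ D) → Fin n → ℕ
  null : Fin n
  le_top : ∀ x r, g x r ≤ K
  null_zero : ∀ x, g x null = 0
  rows_le : n ≤ 2 ^ D
  bad : (univ.filter fun z : Fin (2 ^ D) × Fin (2 ^ D) =>
    ¬∃ r, g z.1 r = K ∧ g z.2 r = 0).card ≤ 4 * 2 ^ D

/-- The thresholds from level `j` on have covers of exponent `A`, the indicator of level above `j`
factors through `2 ^ L` classes of rows, and both parameters are cheap relative to `D`. -/
def Graded.Cheap {K : ℕ} (G : Graded K) (γ j : ℕ) : Prop :=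
  ∃ (L A : ℕ) (π : Fin G.n → Fin (2 ^ L)),
    (∀ x r r', π r = π r' → (j + 1 ≤ G.g x r ↔ j + 1 ≤ G.g x r')) ∧
    (∀ i, j ≤ i → i < K → Covered (fun x r => i + 1 ≤ G.g x r) (fun x r => i ≤ G.g x r) A) ∧
    (A + 1) ^ 2 * (L + 1) * γ ≤ G.D

/-- With a single step between the levels the identity matrix will do. -/
lemma graded_one (γ : ℕ) :
    ∃ G : Graded 1, γ ≤ G.D ∧ ∀ j, 1 ≤ j → j < 1 → G.Cheap γ j := by
  classical
  refine ⟨⟨γ, 2 ^ γ, fun x r => if r = x ∧ x.1 ≠ 0 then 1 else 0, ⟨0, by positivity⟩,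
    fun x r => by split_ifs <;> simp, fun x => if_neg fun h => h.2 (by rw [← h.1]), le_rfl, ?_⟩,
    le_rfl, fun j h1 h2 => absurd h1 (by omega)⟩
  refine (card_le_card (t := (univ.image fun x : Fin (2 ^ γ) => (x, x)) ∪
    univ.image fun y : Fin (2 ^ γ) => ((⟨0, by positivity⟩ : Fin (2 ^ γ)), y)) ?_).trans ?_
  · rintro ⟨x, y⟩ hz
    simp only [mem_union, mem_image, mem_univ, true_and, Prod.mk.injEq]
    by_contra hcon
    rw [not_or] at hcon
    refine (mem_filter.1 hz).2 ⟨x, ?_, ?_⟩
    · exact if_pos ⟨rfl, fun h => hcon.2 ⟨y, Fin.ext h.symm, rfl⟩⟩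
    · exact if_neg fun h => hcon.1 ⟨x, rfl, h.1⟩
  · refine (card_union_le _ _).trans ?_
    have h1 : ∀ f : Fin (2 ^ γ) → Fin (2 ^ γ) × Fin (2 ^ γ), (univ.image f).card ≤ 2 ^ γ :=
      fun f => card_image_le.trans (by simp)
    exact (Nat.add_le_add (h1 _) (h1 _)).trans (by omega)

/-- A semicomplete reflexive relation on fewer than `2 ^ l` points has `l` dominating points. -/
lemma exists_dominating {α : Type} [DecidableEq α] (rel : α → α → Prop) :
    ∀ (l : ℕ) (P : Finset α), P.card < 2 ^ l → (∀ p ∈ P, ∀ q ∈ P, rel p q ∨ rel q p) →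
      ∃ dom : Finset α, dom ⊆ P ∧ dom.card ≤ l ∧ ∀ q ∈ P, ∃ p ∈ dom, rel p q := by
  classical
  intro l
  induction l with
  | zero =>
    intro P hP _
    have : P = ∅ := card_eq_zero.1 (by simpa using hP)
    exact ⟨∅, empty_subset _, by simp, by simp [this]⟩
  | succ l ih =>
    intro P hP hrel
    rcases P.eq_empty_or_nonempty with rfl | hne
    · exact ⟨∅, subset_rfl, by simp, by simp⟩
    obtain ⟨p, hp, hpd⟩ : ∃ p ∈ P, 2 * (P.filter fun q => ¬rel p q).card ≤ P.card := by
      refine exists_le_of_sum_le hne ?_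
      have hswap : ∑ p ∈ P, (P.filter fun q => ¬rel p q).card
          = ∑ p ∈ P, (P.filter fun q => ¬rel q p).card := by
        simp only [card_filter]
        rw [sum_comm]
      calc ∑ p ∈ P, 2 * (P.filter fun q => ¬rel p q).card
          = ∑ p ∈ P, ((P.filter fun q => ¬rel p q).card + (P.filter fun q => ¬rel q p).card) := by
            rw [sum_add_distrib, ← hswap, ← mul_sum, two_mul]
        _ ≤ ∑ p ∈ P, P.card := sum_le_sum fun p hp => by
            have hdis : Disjoint (P.filter fun q => ¬rel p q) (P.filter fun q => ¬rel q p) :=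
              disjoint_filter.2 fun q hq h1 h2 => (hrel p hp q hq).elim h1 h2
            rw [← card_union_of_disjoint hdis]
            exact card_le_card (union_subset (filter_subset _ _) (filter_subset _ _))
    rw [pow_succ] at hP
    obtain ⟨dom, hdP, hdc, hd⟩ := ih (P.filter fun q => ¬rel p q) (by omega) fun a ha b hb =>
      hrel a (filter_subset _ _ ha) b (filter_subset _ _ hb)
    refine ⟨insert p dom, insert_subset hp (hdP.trans (filter_subset _ _)),
      (card_insert_le _ _).trans (by omega), fun q hq => ?_⟩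
    by_cases h : rel p q
    · exact ⟨p, mem_insert_self _ _, h⟩
    · obtain ⟨p', hp', h'⟩ := hd q (mem_filter.2 ⟨hq, h⟩)
      exact ⟨p', mem_insert_of_mem hp', h'⟩

section

variable {s : ℕ} {N : Fin s → Fin s → Bool} {K : ℕ} (G : Graded K)

/-- The rows of a promotion: a term, inner rows on its decisive cells and inner columns on its
support. -/
abbrev PRow (N : Fin s → Fin s → Bool) : Type :=
  Σ T : Term N, (↥T.A → Fin G.n) × (↥(T.A ∪ T.Z) → Fin (2 ^ G.D))

/-- The largest inner level on the decisive cells. -/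
noncomputable def pSup (y : Fin s × Fin s → Fin (2 ^ G.D)) (q : PRow G N) : ℕ :=
  univ.sup fun z : ↥q.1.A => G.g (y z.1) (q.2.1 z)

/-- The column equals the one of the row on the support, which is at top level where it matters. -/
def Exact (y : Fin s × Fin s → Fin (2 ^ G.D)) (q : PRow G N) : Prop :=
  (∀ u : ↥(q.1.A ∪ q.1.Z), y u.1 = q.2.2 u) ∧
    ∀ z : ↥q.1.A, G.g (q.2.2 ⟨z.1, mem_union_left _ z.2⟩) (q.2.1 z) = K

open Classical in
/-- The levels after promotion. -/
noncomputable def pg (y : Fin s × Fin s → Fin (2 ^ G.D)) (q : PRow G N) : ℕ :=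
  if Exact G y q then K + 1 else pSup G y q

lemma Term.A_nonempty (T : Term N) : T.A.Nonempty :=
  ⟨(T.1.1, T.out), Term.mem_A.2 ⟨rfl, T.out_spec⟩⟩

lemma Exact.sup_eq {y : Fin s × Fin s → Fin (2 ^ G.D)} {q : PRow G N} (h : Exact G y q) :
    pSup G y q = K := by
  obtain ⟨z, hz⟩ := Term.A_nonempty q.1
  refine le_antisymm (Finset.sup_le fun z _ => G.le_top _ _) (le_trans ?_ (le_sup (mem_univ ⟨z, hz⟩)))
  rw [h.1 ⟨z, mem_union_left _ hz⟩, h.2 ⟨z, hz⟩]

lemma pSup_le (y : Fin s × Fin s → Fin (2 ^ G.D)) (q : PRow G N) : pSup G y q ≤ K :=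
  Finset.sup_le fun _ _ => G.le_top _ _

lemma pg_le (y : Fin s × Fin s → Fin (2 ^ G.D)) (q : PRow G N) : pg G y q ≤ K + 1 := by
  unfold pg; split_ifs
  · exact le_rfl
  · exact (pSup_le G y q).trans (Nat.le_succ _)

lemma pg_top {y : Fin s × Fin s → Fin (2 ^ G.D)} {q : PRow G N} :
    K + 1 ≤ pg G y q ↔ Exact G y q := by
  refine ⟨fun h => ?_, fun h => (if_pos h).ge⟩
  by_contra hcon
  rw [pg, if_neg hcon] at h
  have := pSup_le G y q
  omega

lemma le_pg_iff {i : ℕ} (hi : i ≤ K) (hi0 : 0 < i) (y : Fin s × Fin s → Fin (2 ^ G.D))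
    (q : PRow G N) : i ≤ pg G y q ↔ ∃ z : ↥q.1.A, i ≤ G.g (y z.1) (q.2.1 z) := by
  have h : i ≤ pg G y q ↔ i ≤ pSup G y q := by
    unfold pg; split_ifs with he
    · rw [he.sup_eq]; omega
    · rfl
  rw [h, pSup, Finset.le_sup_iff (by simpa using hi0)]
  simp

lemma covered_top (htot : ∀ x u, x ≠ u → N x u = true ∨ N u x = true) (hK : 0 < K) :
    Covered (fun y (q : PRow G N) => K + 1 ≤ pg G y q) (fun y q => K ≤ pg G y q) 1 := by
  classical
  intro ι _ w
  set l := Nat.log 2 (Fintype.card ι) + 1 with hl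
  set rel : ι → ι → Prop := fun i i' => ∃ z : ↥(w i').1.A, ∃ h : z.1 ∈ (w i).1.A ∪ (w i).1.Z,
    G.g ((w i).2.2 ⟨z.1, h⟩) ((w i').2.1 z) = K with hrel
  set vec : (Fin l → Option ι) → ι → Bool := fun f i' =>
    decide (∃ j i, f j = some i ∧ rel i i') with hvec
  set F : Finset (Fin l → Option ι) := univ with hF
  refine ⟨(F ×ˢ ({()} : Finset Unit)).image fun z => vec z.1, ?_, fun y => ?_⟩
  · refine card_image_le.trans ?_
    simp only [card_product, card_singleton, mul_one, hF, card_univ, Fintype.card_fun,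
      Fintype.card_option, Fintype.card_fin, one_mul]
    refine (Nat.pow_le_pow_left (Nat.lt_pow_succ_log_self one_lt_two _) _).trans ?_
    rw [← pow_mul, sq]
  · set P := univ.filter fun i => Exact G y (w i) with hP
    obtain ⟨dom, hdP, hdc, hd⟩ := exists_dominating rel l P
      (lt_of_le_of_lt (card_le_univ _) (Nat.lt_pow_succ_log_self one_lt_two _)) fun i hi i' hi' => by
        obtain ⟨e1, t1⟩ := (mem_filter.1 hi).2
        obtain ⟨e2, t2⟩ := (mem_filter.1 hi').2
        have key : ∀ a b : ι, Exact G y (w a) → Exact G y (w b) →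
            (∃ z, z ∈ (w b).1.A ∧ z ∈ (w a).1.A ∪ (w a).1.Z) → rel a b := by
          rintro a b ha hb ⟨z, hzb, hza⟩
          refine ⟨⟨z, hzb⟩, hza, ?_⟩
          rw [← ha.1 ⟨z, hza⟩, hb.1 ⟨z, mem_union_left _ hzb⟩]
          exact hb.2 ⟨z, hzb⟩
        by_cases hT : (w i).1 = (w i').1
        · obtain ⟨z, hz⟩ := Term.A_nonempty (w i').1
          exact Or.inl (key i i' ⟨e1, t1⟩ ⟨e2, t2⟩ ⟨z, hz, by rw [hT]; exact mem_union_left _ hz⟩)
        · rcases Term.conflict htot hT with ⟨z, hz, hz'⟩ | ⟨z, hz, hz'⟩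
          · exact Or.inr (key i' i ⟨e2, t2⟩ ⟨e1, t1⟩ ⟨z, hz, mem_union_right _ hz'⟩)
          · exact Or.inl (key i i' ⟨e1, t1⟩ ⟨e2, t2⟩ ⟨z, hz, mem_union_right _ hz'⟩)
    refine ⟨vec fun j => dom.toList[j.1]?, mem_image.2 ⟨(fun j => dom.toList[j.1]?, ()),
      by simp [hF], rfl⟩, fun i' => ⟨fun h => ?_, fun h => ?_⟩⟩
    · obtain ⟨i, hi, hr⟩ := hd i' (mem_filter.2 ⟨mem_univ _, (pg_top G).1 h⟩)
      obtain ⟨j, hj, hje⟩ := List.getElem_of_mem (mem_toList.2 hi)
      refine decide_eq_true ⟨⟨j, lt_of_lt_of_le hj (by simpa using hdc)⟩, i, ?_, hr⟩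
      show dom.toList[j]? = some i
      rw [List.getElem?_eq_getElem hj, hje]
    · obtain ⟨j, i, hj, z, hz, hzK⟩ := of_decide_eq_true h
      have hi : Exact G y (w i) :=
        (mem_filter.1 (hdP (mem_toList.1 (List.mem_of_getElem? hj)))).2
      refine (le_pg_iff G le_rfl hK _ _).2 ⟨z, ?_⟩
      rw [hi.1 ⟨z.1, hz⟩]
      exact hzK.ge

lemma covered_lift {i A : ℕ} (hi : i + 1 ≤ K) (hi0 : 0 < i)
    (h : Covered (fun x r => i + 1 ≤ G.g x r) (fun x r => i ≤ G.g x r) A) :
    Covered (fun y (q : PRow G N) => i + 1 ≤ pg G y q) (fun y q => i ≤ pg G y q)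
      (s * s * (A + 1)) := by
  classical
  intro ι _ w
  set l := Nat.log 2 (Fintype.card ι) + 1 with hl
  set v : Fin s × Fin s → ι → Fin G.n := fun z i' =>
    if h : z ∈ (w i').1.A then (w i').2.1 ⟨z, h⟩ else G.null with hv
  have H := fun z => h ι (v z)
  choose H hH hcov using H
  refine ⟨(Fintype.piFinset H).image fun f i' => decide (∃ z : ↥(w i').1.A, f z.1 i' = true), ?_,
    fun y => ?_⟩
  · refine card_image_le.trans ?_
    rw [Fintype.card_piFinset]
    refine (prod_le_prod' fun z _ => hH z).trans ?_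
    rw [prod_const, card_univ, Fintype.card_prod, Fintype.card_fin, ← pow_mul]
    refine Nat.pow_le_pow_right (by norm_num) ?_
    calc A * l ^ 2 * (s * s) ≤ (A + 1) * l ^ 2 * (s * s) := by gcongr; omega
      _ = _ := by ring
  · choose f hf hfi using fun z => hcov z (y z)
    refine ⟨_, mem_image_of_mem _ (Fintype.mem_piFinset.2 hf), fun i' => ⟨fun h => ?_, fun h => ?_⟩⟩
    · obtain ⟨z, hz⟩ := (le_pg_iff G hi (Nat.succ_pos _) _ _).1 h
      refine decide_eq_true ⟨z, (hfi z.1 i').1 ?_⟩
      simpa [hv, z.2] using hz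
    · obtain ⟨z, hz⟩ := of_decide_eq_true h
      refine (le_pg_iff G (by omega) hi0 _ _).2 ⟨z, ?_⟩
      have := (hfi z.1 i').2 hz
      simpa [hv, z.2] using this

lemma prow_card_le : Fintype.card (PRow G N) ≤ 2 ^ (4 * s * G.D + 2 * s) := by
  rw [Fintype.card_sigma]
  simp only [Fintype.card_prod, Fintype.card_fun, Fintype.card_fin, Fintype.card_coe]
  calc ∑ T : Term N, G.n ^ T.A.card * (2 ^ G.D) ^ (T.A ∪ T.Z).card
      ≤ ∑ _T : Term N, 2 ^ (4 * s * G.D) := sum_le_sum fun T _ => by
        have hA : T.A.card ≤ s :=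
          card_image_le.trans ((card_le_univ _).trans (Fintype.card_fin s).le)
        calc G.n ^ T.A.card * (2 ^ G.D) ^ (T.A ∪ T.Z).card
            ≤ (2 ^ G.D) ^ s * (2 ^ G.D) ^ (3 * s) := Nat.mul_le_mul
              ((Nat.pow_le_pow_left G.rows_le _).trans
                (Nat.pow_le_pow_right (Nat.two_pow_pos _) hA))
              (Nat.pow_le_pow_right (Nat.two_pow_pos _) T.card_le)
          _ = _ := by rw [← pow_add, ← pow_mul]; ring_nf
    _ ≤ _ := by
        rw [sum_const, smul_eq_mul, card_univ, pow_add, mul_comm]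
        refine Nat.mul_le_mul_left _ ((Fintype.card_subtype_le _).trans ?_)
        rw [Fintype.card_prod, Fintype.card_fin, two_mul, pow_add]
        exact Nat.mul_le_mul s.lt_two_pow_self.le s.lt_two_pow_self.le

lemma proj_card_le {L : ℕ} :
    Fintype.card (Σ T : Term N, (↥T.A → Fin (2 ^ L))) ≤ 2 ^ (s * L + 2 * s) := by
  rw [Fintype.card_sigma]
  simp only [Fintype.card_fun, Fintype.card_fin, Fintype.card_coe]
  calc ∑ T : Term N, (2 ^ L) ^ T.A.card ≤ ∑ _T : Term N, 2 ^ (s * L) := sum_le_sum fun T _ => by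
        rw [← pow_mul, mul_comm L]
        refine Nat.pow_le_pow_right (by norm_num) (Nat.mul_le_mul_right _ ?_)
        exact card_image_le.trans ((card_le_univ _).trans (Fintype.card_fin s).le)
    _ ≤ _ := by
        rw [sum_const, smul_eq_mul, card_univ, pow_add, mul_comm]
        refine Nat.mul_le_mul_left _ ((Fintype.card_subtype_le _).trans ?_)
        rw [Fintype.card_prod, Fintype.card_fin, two_mul, pow_add]
        exact Nat.mul_le_mul s.lt_two_pow_self.le s.lt_two_pow_self.le

/-- Few pairs of promoted columns fail to be separated. -/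
lemma bad_promote {t : ℕ} (hirr : ∀ x, N x x = false)
    (htot : ∀ x u, x ≠ u → N x u = true ∨ N u x = true)
    (hdom : ∀ R : Finset (Fin s), R.card ≤ t → ∃ x ∉ R, ∀ u ∈ R, N x u = false) (hK : 0 < K)
    {m : ℕ} (hm : m + (2 * (t * s) + s * s) ≤ t * s * G.D) :
    (univ.filter fun z : (Fin s × Fin s → Fin (2 ^ G.D)) × (Fin s × Fin s → Fin (2 ^ G.D)) =>
      ¬∃ q : PRow G N, pg G z.1 q = K + 1 ∧ pg G z.2 q = 0).card * 2 ^ m
      ≤ Fintype.card ((Fin s × Fin s → Fin (2 ^ G.D)) × (Fin s × Fin s → Fin (2 ^ G.D))) := by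
  classical
  have _ := hirr
  set bad := univ.filter fun z : Fin (2 ^ G.D) × Fin (2 ^ G.D) =>
    ¬∃ r, G.g z.1 r = K ∧ G.g z.2 r = 0 with hbad
  set good : (Fin s × Fin s → Fin (2 ^ G.D)) × (Fin s × Fin s → Fin (2 ^ G.D)) → Prop := fun z =>
    ∃ q : PRow G N, pg G z.1 q = K + 1 ∧ pg G z.2 q = 0 with hgood
  set enc : (Fin s × Fin s → Fin (2 ^ G.D)) × (Fin s × Fin s → Fin (2 ^ G.D)) →
    Fin s × Fin s → Fin (2 ^ G.D) × Fin (2 ^ G.D) := fun z u => (z.1 u, z.2 u) with henc
  have henc_inj : Function.Injective enc := fun z z' h =>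
    Prod.ext (funext fun u => congrArg Prod.fst (congrFun h u))
      (funext fun u => congrArg Prod.snd (congrFun h u))
  have hsub : (univ.filter fun z => ¬good z).image enc ⊆
      ((univ : Finset (Fin s × Fin s)).powersetCard (t * s)).biUnion fun B =>
        Fintype.piFinset fun u => if u ∈ B then bad else univ := by
    intro f hf
    obtain ⟨⟨x, y⟩, hz, rfl⟩ := mem_image.1 hf
    set R := univ.filter fun u => (x u, y u) ∈ bad with hR
    have hRc : t * s ≤ R.card := by
      by_contra hlt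
      obtain ⟨T, hT⟩ := Term.escape htot hdom (not_le.1 hlt)
      have hsep : ∀ z : ↥T.A, ∃ r, G.g (x z.1) r = K ∧ G.g (y z.1) r = 0 := fun z =>
        by_contra fun hn => disjoint_left.1 hT z.2 (mem_filter.2 ⟨mem_univ _,
          mem_filter.2 ⟨mem_univ _, hn⟩⟩)
      choose r hr hr' using hsep
      set q : PRow G N := ⟨T, r, fun u => x u.1⟩ with hq
      have hx : Exact G x q := ⟨fun _ => rfl, fun z => hr z⟩
      have hy : ¬Exact G y q := fun h => by
        obtain ⟨z, hz⟩ := Term.A_nonempty T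
        have h1 : y z = x z := h.1 ⟨z, mem_union_left _ hz⟩
        have h2 := hr' ⟨z, hz⟩
        rw [h1, hr ⟨z, hz⟩] at h2
        omega
      refine (mem_filter.1 hz).2 ⟨q, if_pos hx, ?_⟩
      show pg G y q = 0
      rw [pg, if_neg hy]
      exact Nat.le_zero.1 (Finset.sup_le fun z _ => (hr' z).le)
    obtain ⟨B, hBR, hBc⟩ := exists_subset_card_eq hRc
    refine mem_biUnion.2 ⟨B, mem_powersetCard.2 ⟨subset_univ _, hBc⟩, Fintype.mem_piFinset.2 fun u => ?_⟩
    by_cases hu : u ∈ B
    · rw [if_pos hu]; exact (mem_filter.1 (hBR hu)).2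
    · rw [if_neg hu]; exact mem_univ _
  have hcount := (card_le_card hsub).trans card_biUnion_le
  rw [card_image_of_injective _ henc_inj] at hcount
  rcases Nat.lt_or_ge (s * s) (t * s) with hlt | hle
  · have : ((univ : Finset (Fin s × Fin s)).powersetCard (t * s)) = ∅ :=
      powersetCard_eq_empty.2 (by simpa using hlt)
    rw [this, sum_empty, Nat.le_zero] at hcount
    rw [hcount]; simp
  have hper : ∀ B ∈ (univ : Finset (Fin s × Fin s)).powersetCard (t * s),
      (Fintype.piFinset fun u => if u ∈ B then bad else univ).card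
        ≤ 2 ^ ((2 + G.D) * (t * s) + 2 * G.D * (s * s - t * s)) := by
    intro B hB
    have hBc := (mem_powersetCard.1 hB).2
    rw [Fintype.card_piFinset]
    have : ∀ u, (if u ∈ B then bad else (univ : Finset _)).card
        ≤ if u ∈ B then 2 ^ (2 + G.D) else 2 ^ (2 * G.D) := fun u => by
      split_ifs
      · exact G.bad.trans (by rw [pow_add]; norm_num)
      · simp [two_mul, pow_add]
    refine (prod_le_prod' fun u _ => this u).trans (le_of_eq ?_)
    rw [prod_ite, prod_const, prod_const, filter_mem_eq_inter, univ_inter, filter_not,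
      filter_mem_eq_inter, univ_inter, card_sdiff_of_subset (subset_univ _), card_univ,
      Fintype.card_prod, Fintype.card_fin, hBc, ← pow_mul, ← pow_mul, ← pow_add]
  have h1 := hcount.trans (sum_le_sum hper)
  rw [sum_const, smul_eq_mul, card_powersetCard] at h1
  refine (Nat.mul_le_mul_right _ (h1.trans (Nat.mul_le_mul_right _ (Nat.choose_le_two_pow _ _)))).trans ?_
  simp only [card_univ, Fintype.card_prod, Fintype.card_fun, Fintype.card_fin, ← pow_mul, ← pow_add]
  refine Nat.pow_le_pow_right (by norm_num) ?_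
  obtain ⟨c, hc⟩ := Nat.exists_eq_add_of_le hle
  rw [hc, Nat.add_sub_cancel_left]
  nlinarith

end

/-- A random selection of few columns keeps the proportion of bad pairs. -/
lemma exists_selection {V : Type} [Fintype V] [Nonempty V] [DecidableEq V] (B : Finset (V × V))
    {m : ℕ} (hB : B.card * 2 ^ m ≤ Fintype.card V * Fintype.card V) :
    ∃ φ : Fin (2 ^ m) → V,
      (univ.filter fun z : Fin (2 ^ m) × Fin (2 ^ m) => (φ z.1, φ z.2) ∈ B).card ≤ 4 * 2 ^ m := by
  classical
  by_contra hcon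
  push Not at hcon
  set M := 2 ^ m with hM
  have hpair : ∀ z : Fin M × Fin M, z.1 ≠ z.2 →
      (univ.filter fun φ : Fin M → V => (φ z.1, φ z.2) ∈ B).card * M
        ≤ Fintype.card (Fin M → V) := by
    rintro ⟨i, j⟩ (hij : i ≠ j)
    have hfib : ∀ b : V × V, (univ.filter fun φ : Fin M → V => (φ i, φ j) = b).card
        * (Fintype.card V * Fintype.card V) ≤ Fintype.card (Fin M → V) := by
      intro b
      rw [← Fintype.card_prod, ← card_univ, ← card_product]
      refine (card_le_card_of_injOn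
        (fun z => Function.update (Function.update z.1 i z.2.1) j z.2.2) (fun z _ => by simp) ?_).trans
        (le_of_eq card_univ)
      rintro ⟨f, a⟩ hf ⟨f', a'⟩ hf' he
      have hfm := (mem_filter.1 (mem_product.1 hf).1).2
      have hfm' := (mem_filter.1 (mem_product.1 hf').1).2
      have hi := congrFun he i
      have hj := congrFun he j
      simp only [Function.update_self, Function.update_of_ne hij] at hi hj
      refine Prod.ext (funext fun l => ?_) (Prod.ext hi hj)
      rcases eq_or_ne l i with rfl | hl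
      · exact (congrArg Prod.fst (hfm.trans hfm'.symm))
      rcases eq_or_ne l j with rfl | hl'
      · exact (congrArg Prod.snd (hfm.trans hfm'.symm))
      · simpa [Function.update_of_ne hl, Function.update_of_ne hl'] using congrFun he l
    have hsplit : (univ.filter fun φ : Fin M → V => (φ i, φ j) ∈ B).card
        = ∑ b ∈ B, (univ.filter fun φ : Fin M → V => (φ i, φ j) = b).card := by
      exact (sum_card_fiberwise_eq_card_filter univ B fun φ : Fin M → V => (φ i, φ j)).symm
    have hVV : 0 < Fintype.card V * Fintype.card V := Nat.mul_pos Fintype.card_pos Fintype.card_pos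
    refine Nat.le_of_mul_le_mul_right ?_ hVV
    calc _ = (∑ b ∈ B, (univ.filter fun φ : Fin M → V => (φ i, φ j) = b).card
            * (Fintype.card V * Fintype.card V)) * M := by
          rw [hsplit, mul_right_comm, sum_mul]
      _ ≤ (B.card * Fintype.card (Fin M → V)) * M := by
          refine Nat.mul_le_mul_right _ ((sum_le_sum fun b _ => hfib b).trans ?_)
          rw [sum_const, smul_eq_mul]
      _ ≤ _ := by
          rw [mul_right_comm, mul_comm (Fintype.card (Fin M → V))]
          exact Nat.mul_le_mul_right _ hB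
  have hswap : ∑ φ : Fin M → V, (univ.filter fun z : Fin M × Fin M => (φ z.1, φ z.2) ∈ B).card
      = ∑ z : Fin M × Fin M, (univ.filter fun φ : Fin M → V => (φ z.1, φ z.2) ∈ B).card := by
    simp only [card_filter]
    rw [sum_comm]
  have h1 : (∑ φ : Fin M → V, (univ.filter fun z : Fin M × Fin M => (φ z.1, φ z.2) ∈ B).card) * M
      ≤ ∑ z : Fin M × Fin M,
        (Fintype.card (Fin M → V) + if z.1 = z.2 then Fintype.card (Fin M → V) * M else 0) := by
    rw [hswap, sum_mul]
    refine sum_le_sum fun z _ => ?_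
    by_cases h : z.1 = z.2
    · rw [if_pos h]
      have := Nat.mul_le_mul_right M
        (card_le_univ (univ.filter fun φ : Fin M → V => (φ z.1, φ z.2) ∈ B))
      omega
    · rw [if_neg h, add_zero]
      exact hpair z h
  have h2 : ∑ z : Fin M × Fin M,
      (Fintype.card (Fin M → V) + if z.1 = z.2 then Fintype.card (Fin M → V) * M else 0)
      = 2 * Fintype.card (Fin M → V) * M * M := by
    rw [sum_add_distrib, sum_const, card_univ, Fintype.card_prod, Fintype.card_fin, smul_eq_mul,
      Fintype.sum_prod_type]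
    simp only [sum_ite_eq, mem_univ, if_true, sum_const, card_univ, Fintype.card_fin, smul_eq_mul]
    ring
  have h3 : Fintype.card (Fin M → V) * (4 * M) * M
      < (∑ φ : Fin M → V, (univ.filter fun z : Fin M × Fin M => (φ z.1, φ z.2) ∈ B).card) * M := by
    refine Nat.mul_lt_mul_of_pos_right ?_ (by positivity)
    calc Fintype.card (Fin M → V) * (4 * M) = ∑ _φ : Fin M → V, 4 * M := by simp
      _ < _ := sum_lt_sum_of_nonempty univ_nonempty fun φ _ => hcon φ
  rw [h2] at h1
  have := h3.trans_le h1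
  have e : Fintype.card (Fin M → V) * (4 * M) * M
      = 2 * (2 * Fintype.card (Fin M → V) * M * M) := by ring
  omega

/-- One more level: promote the columns that agree exactly with a row. -/
lemma graded_succ {K : ℕ} (hK : 0 < K)
    (ih : ∀ γ, ∃ G : Graded K, γ ≤ G.D ∧ ∀ j, 1 ≤ j → j < K → G.Cheap γ j) (γ : ℕ) :
    ∃ G : Graded (K + 1), γ ≤ G.D ∧ ∀ j, 1 ≤ j → j < K + 1 → G.Cheap γ j := by
  classical
  obtain ⟨t, ht⟩ : ∃ t, t = 64 * γ + 64 := ⟨_, rfl⟩
  obtain ⟨s, N, hs, hirr, htot, hdom⟩ := exists_tournament t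
  obtain ⟨G, hD, hcheap⟩ := ih (12 * s ^ 5 * γ + 6 * s + γ + 8)
  obtain ⟨m, hm, hmD, hmhalf⟩ : ∃ m, m + (2 * (t * s) + s * s) ≤ t * s * G.D ∧ G.D ≤ m ∧
      t * s * G.D ≤ 2 * m := by
    refine ⟨t * s * G.D - (2 * (t * s) + s * s), ?_⟩
    have h1 : 4 * (t * s) + 2 * (s * s) + 2 * G.D ≤ t * s * G.D := by
      have h8 : 8 ≤ G.D := by omega
      have h6 : 6 * s ≤ G.D := by omega
      have ht64 : 64 ≤ t := by omega
      nlinarith [Nat.mul_le_mul_left (t * s) h8, Nat.mul_le_mul_left s h6,
        Nat.mul_le_mul (Nat.mul_le_mul ht64 hs) (le_refl G.D)]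
    omega
  have : Nonempty (Fin s × Fin s → Fin (2 ^ G.D)) := ⟨fun _ => ⟨0, Nat.two_pow_pos _⟩⟩
  obtain ⟨T₀, -⟩ := Term.escape (R := (∅ : Finset (Fin s × Fin s))) htot hdom
    (by rw [card_empty]; exact Nat.mul_pos (by omega) hs)
  obtain ⟨φ, hφ⟩ := exists_selection
    (univ.filter fun z : (Fin s × Fin s → Fin (2 ^ G.D)) × (Fin s × Fin s → Fin (2 ^ G.D)) =>
      ¬∃ q : PRow G N, pg G z.1 q = K + 1 ∧ pg G z.2 q = 0)
    (m := m) (by rw [← Fintype.card_prod]; exact bad_promote G hirr htot hdom hK hm)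
  let e := Fintype.equivFin (PRow G N)
  let null' : PRow G N := ⟨T₀, fun _ => G.null, fun _ => ⟨0, Nat.two_pow_pos _⟩⟩
  have hnull : ∀ y, pg G y null' = 0 := by
    intro y
    have hne : ¬Exact G y null' := fun h => by
      obtain ⟨z, hz⟩ := Term.A_nonempty T₀
      have := h.2 ⟨z, hz⟩
      rw [show null'.2.1 ⟨z, hz⟩ = G.null from rfl, G.null_zero] at this
      omega
    rw [pg, if_neg hne]
    exact Nat.le_zero.1 (Finset.sup_le fun z _ => (G.null_zero _).le)
  have hbudget : 4 * s * G.D + 2 * s + 1 ≤ 7 * (s * G.D) := by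
    have : s ≤ s * G.D := Nat.le_mul_of_pos_right _ (by omega)
    nlinarith
  have hts : 64 * (γ + 1) * (s * G.D) ≤ 2 * m := by
    rw [show 64 * (γ + 1) = t by omega, ← mul_assoc]; exact hmhalf
  let G' : Graded (K + 1) :=
    { D := m
      n := Fintype.card (PRow G N)
      g := fun x r => pg G (φ x) (e.symm r)
      null := e null'
      le_top := fun x r => pg_le G _ _
      null_zero := fun x => by rw [Equiv.symm_apply_apply]; exact hnull _
      rows_le := (prow_card_le G).trans (Nat.pow_le_pow_right (by norm_num) (by nlinarith))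
      bad := by
        refine le_trans (card_le_card fun z hz => mem_filter.2 ⟨mem_univ _, mem_filter.2
          ⟨mem_univ _, ?_⟩⟩) hφ
        rintro ⟨q, hq⟩
        exact (mem_filter.1 hz).2 ⟨e q, by simpa using hq⟩ }
  refine ⟨G', le_trans (le_trans (by omega) hD) hmD, fun j hj1 hj2 => ?_⟩
  have htop : Covered (fun x (r : Fin G'.n) => K + 1 ≤ G'.g x r) (fun x r => K ≤ G'.g x r) 1 := by
    intro ι _ w
    obtain ⟨H, hH, hcov⟩ := covered_top G htot hK ι fun i => e.symm (w i)
    exact ⟨H, hH, fun y => hcov (φ y)⟩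
  rcases Nat.lt_or_eq_of_le (Nat.le_of_lt_succ hj2) with hjK | rfl
  · obtain ⟨L, A, π, hfac, hcov, hbud⟩ := hcheap j hj1 hjK
    have hA' : 1 ≤ s * s * (A + 1) := Nat.mul_pos (Nat.mul_pos hs hs) (Nat.succ_pos _)
    let P := Σ T : Term N, (↥T.A → Fin (2 ^ L))
    obtain ⟨emb⟩ := Function.Embedding.nonempty_of_card_le (α := P) (β := Fin (2 ^ (s * L + 2 * s)))
      (by rw [Fintype.card_fin]; exact proj_card_le)
    refine ⟨s * L + 2 * s, s * s * (A + 1),
      fun r => emb ⟨(e.symm r).1, fun z => π ((e.symm r).2.1 z)⟩, fun x r r' hrr => ?_,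
      fun i hji hiK => ?_, ?_⟩
    · show j + 1 ≤ pg G _ _ ↔ j + 1 ≤ pg G _ _
      rw [le_pg_iff G (by omega) (Nat.succ_pos _), le_pg_iff G (by omega) (Nat.succ_pos _)]
      have h := emb.injective hrr
      revert h
      generalize e.symm r = q
      generalize e.symm r' = q'
      obtain ⟨T, f, c⟩ := q
      obtain ⟨T', f', c'⟩ := q'
      intro h
      obtain ⟨rfl, h⟩ := Sigma.mk.inj_iff.1 h
      exact exists_congr fun z => hfac _ _ _ (congrFun (eq_of_heq h) z)
    · rcases Nat.lt_or_eq_of_le (Nat.le_of_lt_succ hiK) with hi | rfl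
      · intro ι _ w
        obtain ⟨H, hH, hc⟩ := covered_lift G (N := N) (i := i) hi (by omega) (hcov i hji hi) ι
          fun l => e.symm (w l)
        exact ⟨H, hH, fun y => hc (φ y)⟩
      · intro ι _ w
        obtain ⟨H, hH, hc⟩ := htop ι w
        exact ⟨H, hH.trans (Nat.pow_le_pow_right (by norm_num) (Nat.mul_le_mul_right _ hA')), hc⟩
    · show _ ≤ m
      have h1 : (s * s * (A + 1) + 1) ^ 2 ≤ 4 * s ^ 4 * (A + 1) ^ 2 := by
        calc (s * s * (A + 1) + 1) ^ 2 ≤ (2 * (s * s * (A + 1))) ^ 2 :=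
              Nat.pow_le_pow_left (by omega) 2
          _ = _ := by ring
      have h2 : s * L + 2 * s + 1 ≤ 3 * s * (L + 1) := by nlinarith
      calc (s * s * (A + 1) + 1) ^ 2 * (s * L + 2 * s + 1) * γ
          ≤ 4 * s ^ 4 * (A + 1) ^ 2 * (3 * s * (L + 1)) * γ := by gcongr
        _ = (A + 1) ^ 2 * (L + 1) * (12 * s ^ 5 * γ) := by ring
        _ ≤ (A + 1) ^ 2 * (L + 1) * (12 * s ^ 5 * γ + 6 * s + γ + 8) := by gcongr; omega
        _ ≤ G.D := hbud
        _ ≤ m := hmD
  · obtain ⟨emb⟩ := Function.Embedding.nonempty_of_card_le (α := Fin G'.n)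
      (β := Fin (2 ^ (4 * s * G.D + 2 * s))) (by simpa [G'] using prow_card_le G (N := N))
    refine ⟨4 * s * G.D + 2 * s, 1, emb, fun x r r' hrr => by rw [emb.injective hrr],
      fun i hji hiK => ?_, ?_⟩
    · obtain rfl : i = j := by omega
      exact htop
    · show _ ≤ m
      nlinarith

/-- Graded classes exist with any number of levels and any margin. -/
theorem exists_graded : ∀ K : ℕ, 1 ≤ K → ∀ γ : ℕ,
    ∃ G : Graded K, γ ≤ G.D ∧ ∀ j, 1 ≤ j → j < K → G.Cheap γ j := by
  intro K hK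
  induction K, hK using Nat.le_induction with
  | base => exact graded_one
  | succ K hK ih => exact graded_succ hK ih

end Vale.Agent.P126
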