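import Mathlib

/-!
Existence of tournaments in which every small set of vertices has a common dominator.
-/

namespace Vale.Agent.P126

open Finset

/-- The orientation of a tournament given by a table of bits. -/
def orient {s : ℕ} (O : Fin s × Fin s → Bool) (x u : Fin s) : Bool :=
  if x < u then O (x, u) else if u < x then !O (u, x) else false

lemma orient_self {s : ℕ} (O : Fin s × Fin s → Bool) (x : Fin s) : orient O x x = false := by
  simp [orient]

lemma orient_total {s : ℕ} (O : Fin s × Fin s → Bool) {x u : Fin s} (h : x ≠ u) :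
    orient O x u = true ∨ orient O u x = true := by
  rcases lt_or_gt_of_ne h with h | h <;> simp [orient, h, h.not_gt]

/-- The unordered pair as an entry of the table. -/
def edge {s : ℕ} (x u : Fin s) : Fin s × Fin s := if x < u then (x, u) else (u, x)

lemma orient_determines {s : ℕ} {O O' : Fin s × Fin s → Bool} {x u : Fin s} (h : x ≠ u)
    (e : orient O x u = orient O' x u) : O (edge x u) = O' (edge x u) := by
  rcases lt_or_gt_of_ne h with h | h
  · simpa [orient, edge, h] using e
  · simpa [orient, edge, h, h.not_gt] using e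

open Classical in
/-- The tables for which the set `R` has no dominator. -/
noncomputable def badFor {s : ℕ} (R : Finset (Fin s)) : Finset (Fin s × Fin s → Bool) :=
  univ.filter fun O => ∀ x ∉ R, ∃ u ∈ R, orient O x u = true

/-- Few tables leave a given set without a dominator. -/
lemma badFor_card {s : ℕ} (R : Finset (Fin s)) :
    (badFor R).card * (2 ^ R.card) ^ (Rᶜ).card
      ≤ 2 ^ (s * s) * (2 ^ R.card - 1) ^ (Rᶜ).card := by
  classical
  set E : Finset (Fin s × Fin s) := (Rᶜ ×ˢ R).image fun z => edge z.1 z.2 with hE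
  have hEcard : E.card = (Rᶜ).card * R.card := by
    rw [hE, card_image_of_injOn, card_product]
    rintro ⟨x, u⟩ hz ⟨x', u'⟩ hz' e
    simp only [coe_product, Set.mem_prod, mem_coe, mem_compl] at hz hz'
    simp only [edge] at e
    split_ifs at e with h h' h' <;> simp only [Prod.mk.injEq] at e <;> obtain ⟨e1, e2⟩ := e
    · rw [e1, e2]
    · exact absurd (e1 ▸ hz'.2) hz.1
    · exact absurd (e2 ▸ hz'.2) hz.1
    · rw [e1, e2]
  set F : (Fin s × Fin s → Bool) → ({z // z ∉ E} → Bool) × (↥(Rᶜ) → (↥R → Bool)) :=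
    fun O => (fun z => O z.1, fun x u => orient O x.1 u.1) with hF
  have hinj : Function.Injective F := by
    intro O O' e
    funext z
    by_cases hz : z ∈ E
    · obtain ⟨⟨x, u⟩, hxu, rfl⟩ := mem_image.1 hz
      obtain ⟨hx, hu⟩ := mem_product.1 hxu
      exact orient_determines (fun h => mem_compl.1 hx (h ▸ hu))
        (congrFun (congrFun (congrArg Prod.snd e) ⟨x, hx⟩) ⟨u, hu⟩)
    · exact congrFun (congrArg Prod.fst e) ⟨z, hz⟩
  have hsub : (badFor R).image F ⊆ (univ : Finset ({z // z ∉ E} → Bool)) ×ˢ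
      Fintype.piFinset fun _ : ↥(Rᶜ) => (univ : Finset (↥R → Bool)).erase fun _ => false := by
    intro p hp
    obtain ⟨O, hO, rfl⟩ := mem_image.1 hp
    refine mem_product.2 ⟨mem_univ _, Fintype.mem_piFinset.2 fun x => mem_erase.2 ⟨?_, mem_univ _⟩⟩
    intro h
    obtain ⟨u, hu, h'⟩ := (mem_filter.1 hO).2 x.1 (mem_compl.1 x.2)
    have := congrFun h ⟨u, hu⟩
    simp [hF, h'] at this
  have hc := card_le_card hsub
  rw [card_image_of_injective _ hinj, card_product, Fintype.card_piFinset] at hc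
  simp only [prod_const, card_univ, Fintype.card_fun, Fintype.card_bool, card_erase_of_mem,
    mem_univ, Fintype.card_coe] at hc
  rw [Fintype.card_subtype_compl, Fintype.card_coe] at hc
  simp only [Fintype.card_prod, Fintype.card_fin] at hc
  have hle : E.card ≤ s * s := by simpa using card_le_univ E
  calc (badFor R).card * (2 ^ R.card) ^ (Rᶜ).card
      ≤ 2 ^ (s * s - E.card) * (2 ^ R.card - 1) ^ (Rᶜ).card * (2 ^ R.card) ^ (Rᶜ).card :=
        Nat.mul_le_mul_right _ hc
    _ = _ := by
        rw [← pow_mul 2, mul_right_comm, ← pow_add,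
          show s * s - E.card + R.card * (Rᶜ).card = s * s by
            rw [mul_comm R.card, ← hEcard]; omega]

/-- A deficit of one in `q` halves after `q` steps. -/
lemma two_mul_pred_pow {q : ℕ} (hq : 1 ≤ q) : 2 * (q - 1) ^ q ≤ q ^ q := by
  obtain ⟨p, rfl⟩ := Nat.exists_eq_add_of_le hq
  rw [Nat.add_sub_cancel_left, add_comm 1 p]
  have key : ∀ k : ℕ, p ^ (k + 1) + (k + 1) * p ^ k ≤ (p + 1) ^ (k + 1) := by
    intro k
    induction k with
    | zero => simp
    | succ k ih =>
      calc p ^ (k + 1 + 1) + (k + 1 + 1) * p ^ (k + 1)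
          ≤ (p ^ (k + 1) + (k + 1) * p ^ k) * (p + 1) := by
            have : 0 ≤ (k + 1) * p ^ k := Nat.zero_le _
            rw [pow_succ p (k + 1), pow_succ p k]; nlinarith
        _ ≤ (p + 1) ^ (k + 1) * (p + 1) := Nat.mul_le_mul_right _ ih
        _ = _ := (pow_succ _ _).symm
  have h1 := key p
  have h2 : p * p ^ p ≤ (p + 1) * p ^ p := Nat.mul_le_mul_right _ (Nat.le_succ p)
  rw [pow_succ' p p] at h1 ⊢
  omega

lemma four_pow_gt (t : ℕ) : t * (3 * t + 6) < 4 ^ (t + 2) := by
  induction t with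
  | zero => norm_num
  | succ t ih =>
    have : 4 ^ 2 ≤ 4 ^ (t + 2) := Nat.pow_le_pow_right (by norm_num) (by omega)
    rw [pow_succ]; nlinarith

/-- A tournament in which every set of at most `t` vertices has a common dominator. -/
theorem exists_tournament (t : ℕ) : ∃ (s : ℕ) (N : Fin s → Fin s → Bool), 0 < s ∧
    (∀ x, N x x = false) ∧ (∀ x u, x ≠ u → N x u = true ∨ N u x = true) ∧
    ∀ R : Finset (Fin s), R.card ≤ t → ∃ x ∉ R, ∀ u ∈ R, N x u = false := by
  classical
  set L := 4 ^ (t + 2) with hL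
  set s := t + 2 ^ t * L with hs
  have hs0 : 0 < s := by positivity
  have hsle : s ≤ 2 ^ (3 * t + 6) := by
    have e : 2 ^ t * L = 2 ^ (3 * t + 4) := by
      rw [hL, show (4:ℕ) = 2 ^ 2 by norm_num, ← pow_mul, ← pow_add]; ring_nf
    have h1 : t ≤ 2 ^ (3 * t + 4) := (Nat.lt_two_pow_self.le).trans
      (Nat.pow_le_pow_right (by norm_num) (by omega))
    rw [hs, e, show 3 * t + 6 = (3 * t + 4) + 2 by ring, pow_add 2 (3 * t + 4) 2]
    omega
  by_contra hcon
  push Not at hcon
  have hcover : (univ : Finset (Fin s × Fin s → Bool)) ⊆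
      ((univ : Finset (Fin s)).powersetCard t).biUnion badFor := by
    intro O _
    obtain ⟨R, hR, hbad⟩ := hcon s (orient O) hs0 (orient_self O) (fun x u => orient_total O)
    obtain ⟨R', hRR', hR'c⟩ := exists_superset_card_eq (s := R) hR (by simp; omega)
    refine mem_biUnion.2 ⟨R', by simp [hR'c], mem_filter.2 ⟨mem_univ _, fun x hx => ?_⟩⟩
    obtain ⟨u, hu, h⟩ := hbad x fun h => hx (hRR' h)
    exact ⟨u, hRR' hu, by simpa using h⟩
  set m := 2 ^ t * L with hm
  have hper : ∀ R ∈ (univ : Finset (Fin s)).powersetCard t,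
      (badFor R).card * (2 ^ t) ^ m ≤ 2 ^ (s * s) * (2 ^ t - 1) ^ m := by
    intro R hR
    have hc := (mem_powersetCard.1 hR).2
    have := badFor_card R
    rwa [card_compl, hc, Fintype.card_fin, show s - t = m by omega] at this
  have h1 : 2 ^ (s * s) * (2 ^ t) ^ m ≤ s ^ t * (2 ^ (s * s) * (2 ^ t - 1) ^ m) := by
    calc 2 ^ (s * s) * (2 ^ t) ^ m
        ≤ (∑ R ∈ (univ : Finset (Fin s)).powersetCard t, (badFor R).card) * (2 ^ t) ^ m := by
          refine Nat.mul_le_mul_right _ (le_trans (le_of_eq ?_) ((card_le_card hcover).trans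
            card_biUnion_le))
          simp
      _ = ∑ R ∈ (univ : Finset (Fin s)).powersetCard t, (badFor R).card * (2 ^ t) ^ m :=
          sum_mul ..
      _ ≤ ∑ _R ∈ (univ : Finset (Fin s)).powersetCard t, 2 ^ (s * s) * (2 ^ t - 1) ^ m :=
          sum_le_sum hper
      _ ≤ _ := by
          rw [sum_const, card_powersetCard, card_univ, Fintype.card_fin, smul_eq_mul]
          exact Nat.mul_le_mul_right _ (Nat.choose_le_pow _ _)
  have h2 : 2 ^ L * (2 ^ t - 1) ^ m ≤ (2 ^ t) ^ m := by
    rw [hm, pow_mul, pow_mul (2 ^ t) (2 ^ t) L, ← mul_pow]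
    exact Nat.pow_le_pow_left (two_mul_pred_pow Nat.one_le_two_pow) _
  have h3 : s ^ t < 2 ^ L := by
    refine lt_of_le_of_lt (Nat.pow_le_pow_left hsle t) ?_
    rw [← pow_mul]
    exact Nat.pow_lt_pow_right (by norm_num) (by rw [hL, mul_comm]; exact four_pow_gt t)
  have h4 : 0 < (2 ^ t) ^ m := by positivity
  have h5 : 2 ^ L * (2 ^ t) ^ m ≤ s ^ t * (2 ^ t) ^ m := by
    have h6 := Nat.mul_le_mul_left (2 ^ L) h1
    have h7 : 2 ^ L * (s ^ t * (2 ^ (s * s) * (2 ^ t - 1) ^ m))
        ≤ 2 ^ (s * s) * (s ^ t * (2 ^ t) ^ m) := by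
      calc 2 ^ L * (s ^ t * (2 ^ (s * s) * (2 ^ t - 1) ^ m))
          = 2 ^ (s * s) * (s ^ t * (2 ^ L * (2 ^ t - 1) ^ m)) := by ring
        _ ≤ _ := by gcongr
    have h8 : 2 ^ (s * s) * (2 ^ L * (2 ^ t) ^ m) ≤ 2 ^ (s * s) * (s ^ t * (2 ^ t) ^ m) := by
      calc _ = 2 ^ L * (2 ^ (s * s) * (2 ^ t) ^ m) := by ring
        _ ≤ _ := h6.trans h7
    exact Nat.le_of_mul_le_mul_left h8 (by positivity)
  exact absurd (Nat.le_of_mul_le_mul_right h5 h4) (not_le.2 h3)

end Vale.Agent.P126
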